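import Vale.Agent.P318.H867.Main

/-! The abelian rounding argument with a subadditive majorant of the spectral sum. -/

open Finset
open scoped ComplexConjugate Real

set_option linter.unusedSectionVars false

namespace Vale.Agent.P318.R2.H969

open Vale.Agent.P318.H867

variable {G : Type*} [AddCommGroup G] [Fintype G] [DecidableEq G]

section
variable {A : AddChar G ℂ → ℝ} {r : G → ℝ}

/-- the mass of the characters which turn `2^k z` by at least a right angle -/
lemma mass_leL (hA : ∀ χ, 0 ≤ A χ) (hr : ∀ z, ∑ χ, A χ * Q χ z ≤ r z)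
    (hadd : ∀ z w, r (z + w) ≤ r z + r w) (z : G) (k : ℕ) :
    ∑ χ with (χ z ^ 2 ^ k).re ≤ 0, A χ ≤ 2 ^ k * r z / 2 := by
  have h1 : ∑ χ with (χ z ^ 2 ^ k).re ≤ 0, A χ * 2 ≤ r (2 ^ k • z) := by
    refine le_trans ?_ (hr _)
    calc ∑ χ with (χ z ^ 2 ^ k).re ≤ 0, A χ * 2
        ≤ ∑ χ with (χ z ^ 2 ^ k).re ≤ 0, A χ * Q χ (2 ^ k • z) := by
          apply sum_le_sum
          intro χ hχ
          rw [mem_filter] at hχ
          apply mul_le_mul_of_nonneg_left _ (hA χ)
          rw [Q_eq, AddChar.map_nsmul_eq_pow]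
          linarith [hχ.2]
      _ ≤ _ := sum_le_sum_of_subset_of_nonneg (filter_subset _ _)
          (fun χ _ _ => mul_nonneg (hA χ) (Q_nonneg _ _))
  have h2 := r_pow_le hadd k z
  rw [← sum_mul] at h1
  linarith

lemma r_nonnegL (hA : ∀ χ, 0 ≤ A χ) (hr : ∀ z, ∑ χ, A χ * Q χ z ≤ r z) (z : G) : 0 ≤ r z := by
  exact (sum_nonneg fun χ _ => mul_nonneg (hA χ) (Q_nonneg _ _)).trans (hr z)

/-- one generator: the part of the spectrum with scale at least `K` -/
lemma one_genL (hA : ∀ χ, 0 ≤ A χ) (hr : ∀ z, ∑ χ, A χ * Q χ z ≤ r z)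
    (hadd : ∀ z w, r (z + w) ≤ r z + r w) (z : G) (K J : ℕ) (E : Finset (AddChar G ℂ))
    (hE : ∀ χ ∈ E, ∀ k < K, ¬ (χ z ^ 2 ^ k).re ≤ 0) (T : ℝ) (hT : ∑ χ ∈ E, A χ ≤ T) :
    ∑ χ ∈ E, A χ * ‖1 - χ z‖ ≤ π / 2 * J * r z + π / 2 ^ (K + J) * T := by
  have hpi := Real.pi_pos
  have h1 : ∀ χ ∈ E, A χ * ‖1 - χ z‖ ≤
      ∑ k ∈ Ico K (K + J), (π / 2 ^ k) * (if (χ z ^ 2 ^ k).re ≤ 0 then A χ else 0) +
        π / 2 ^ (K + J) * A χ := by
    intro χ hχ
    have hnn : 0 ≤ ∑ k ∈ Ico K (K + J),
        (π / 2 ^ k) * (if (χ z ^ 2 ^ k).re ≤ 0 then A χ else 0) := by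
      apply sum_nonneg
      intro k _
      apply mul_nonneg (by positivity)
      split_ifs
      · exact hA χ
      · exact le_rfl
    by_cases h0 : χ z = 1
    · rw [h0]; simp only [sub_self, norm_zero, mul_zero]
      have := hA χ
      positivity
    obtain ⟨k, hk1, hk2, -⟩ := scale_exists (χ.norm_apply z) h0
    have hKk : K ≤ k := by
      by_contra hlt
      exact hE χ hχ k (not_le.1 hlt) hk2
    by_cases hkJ : k < K + J
    · have h2 : (π / 2 ^ k) * A χ ≤ ∑ k ∈ Ico K (K + J),
          (π / 2 ^ k) * (if (χ z ^ 2 ^ k).re ≤ 0 then A χ else 0) := by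
        have := single_le_sum (f := fun k => (π / 2 ^ k) *
          (if (χ z ^ 2 ^ k).re ≤ 0 then A χ else 0)) (s := Ico K (K + J)) (a := k)
          (fun j _ => by
            apply mul_nonneg (by positivity)
            split_ifs
            · exact hA χ
            · exact le_rfl) (mem_Ico.2 ⟨hKk, hkJ⟩)
        simpa [hk2] using this
      have h3 : A χ * ‖1 - χ z‖ ≤ (π / 2 ^ k) * A χ := by
        rw [mul_comm]; exact mul_le_mul_of_nonneg_right hk1 (hA χ)
      have h4 : 0 ≤ π / 2 ^ (K + J) * A χ := mul_nonneg (by positivity) (hA χ)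
      linarith
    · have h5 : π / 2 ^ k ≤ π / 2 ^ (K + J) := by
        apply div_le_div_of_nonneg_left hpi.le (by positivity)
        exact pow_le_pow_right₀ (by norm_num) (not_lt.1 hkJ)
      have h6 : A χ * ‖1 - χ z‖ ≤ (π / 2 ^ (K + J)) * A χ := by
        rw [mul_comm]; exact mul_le_mul_of_nonneg_right (hk1.trans h5) (hA χ)
      linarith
  calc ∑ χ ∈ E, A χ * ‖1 - χ z‖ ≤ ∑ χ ∈ E, (∑ k ∈ Ico K (K + J), (π / 2 ^ k) *
      (if (χ z ^ 2 ^ k).re ≤ 0 then A χ else 0) + π / 2 ^ (K + J) * A χ) := sum_le_sum h1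
    _ = ∑ k ∈ Ico K (K + J), (π / 2 ^ k) *
        ∑ χ ∈ E, (if (χ z ^ 2 ^ k).re ≤ 0 then A χ else 0) + π / 2 ^ (K + J) * ∑ χ ∈ E, A χ := by
        rw [sum_add_distrib, sum_comm]
        simp_rw [← mul_sum]
    _ ≤ ∑ k ∈ Ico K (K + J), (π / 2 ^ k) * (2 ^ k * r z / 2) + π / 2 ^ (K + J) * T := by
        apply add_le_add
        · apply sum_le_sum
          intro k _
          apply mul_le_mul_of_nonneg_left _ (by positivity)
          refine le_trans ?_ (mass_leL hA hr hadd z k)
          rw [sum_filter]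
          apply sum_le_sum_of_subset_of_nonneg (subset_univ _)
          intro χ _ _
          split_ifs
          · exact hA χ
          · exact le_rfl
        · exact mul_le_mul_of_nonneg_left hT (by positivity)
    _ = π / 2 * J * r z + π / 2 ^ (K + J) * T := by
        congr 1
        have : ∀ k ∈ Ico K (K + J), (π / 2 ^ k) * (2 ^ k * r z / 2) = π / 2 * r z := by
          intro k _
          have : (2 : ℝ) ^ k ≠ 0 := by positivity
          field_simp
        rw [sum_congr rfl this]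
        simp
        ring

/-- **Small support.** -/
theorem exists_char_supportL (hA : ∀ χ, 0 ≤ A χ) (hr : ∀ z, ∑ χ, A χ * Q χ z ≤ r z)
    (hadd : ∀ z w, r (z + w) ≤ r z + r w) {c : G → ℝ} (hc : ∀ z, 0 ≤ c z)
    (hT : 0 < ∑ χ ∈ univ.erase (0 : AddChar G ℂ), A χ)
    (M J : ℕ) (hM1 : 1 ≤ M) (hM : (univ.filter fun z => c z ≠ 0).card ≤ M) (hJ : 4 * M ≤ 2 ^ J) :
    ∃ χ : AddChar G ℂ, χ ≠ 0 ∧
      (∑ z, c z * ‖1 - χ z‖) * ∑ χ ∈ univ.erase (0 : AddChar G ℂ), A χ ≤
        2 * π / 3 * (J + 2) * ∑ z, c z * r z := by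
  have hpi := Real.pi_pos
  set T := ∑ χ ∈ univ.erase (0 : AddChar G ℂ), A χ with hTdef
  have hr0 := r_nonnegL hA hr
  have hM1' : (1 : ℝ) ≤ M := by exact_mod_cast hM1
  let K : G → ℕ := fun z => if r z = 0 then 0 else Nat.log 2 ⌊T / (2 * M * r z)⌋₊
  let Bad : G → Finset (AddChar G ℂ) := fun z =>
    univ.filter fun χ => ∃ k < K z, (χ z ^ 2 ^ k).re ≤ 0
  -- the bad sets are small
  have hbad : ∀ z, ∑ χ ∈ Bad z, A χ ≤ T / (4 * M) := by
    intro z
    by_cases hK0 : K z = 0
    · have : Bad z = ∅ := by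
        apply filter_eq_empty_iff.2
        rintro χ - ⟨k, hk, -⟩
        omega
      rw [this, sum_empty]
      positivity
    have hrz : 0 < r z := by
      rcases (hr0 z).lt_or_eq with h | h
      · exact h
      · exact absurd (by simp [K, h.symm]) hK0
    have h1 : ∑ χ ∈ Bad z, A χ ≤ ∑ k ∈ range (K z), (2 ^ k * r z / 2) := by
      calc ∑ χ ∈ Bad z, A χ ≤ ∑ χ, ∑ k ∈ range (K z),
            (if (χ z ^ 2 ^ k).re ≤ 0 then A χ else 0) := by
            rw [sum_filter]
            apply sum_le_sum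
            intro χ _
            have hnn : ∀ k ∈ range (K z), 0 ≤ (if (χ z ^ 2 ^ k).re ≤ 0 then A χ else 0) := by
              intro k _
              split_ifs
              · exact hA χ
              · exact le_rfl
            split_ifs with h2
            · obtain ⟨k, hk, hk2⟩ := h2
              have := single_le_sum hnn (mem_range.2 hk)
              simpa [hk2] using this
            · exact sum_nonneg hnn
        _ = ∑ k ∈ range (K z), ∑ χ with (χ z ^ 2 ^ k).re ≤ 0, A χ := by
            rw [sum_comm]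
            simp_rw [sum_filter]
        _ ≤ _ := sum_le_sum fun k _ => mass_leL hA hr hadd z k
    have h2 : ∑ k ∈ range (K z), (2 ^ k * r z / 2 : ℝ) = (2 ^ K z - 1) * (r z / 2) := by
      have := geom_sum_eq (x := (2:ℝ)) (by norm_num) (K z)
      simp_rw [mul_div_assoc, ← sum_mul, this]
      norm_num
    have hfl : ⌊T / (2 * M * r z)⌋₊ ≠ 0 := by
      intro h3
      exact hK0 (by simp [K, h3])
    have hK1 : (2 : ℝ) ^ K z ≤ T / (2 * M * r z) := by
      have h3 : 2 ^ K z ≤ ⌊T / (2 * M * r z)⌋₊ := by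
        simp only [K, hrz.ne', if_false]
        exact Nat.pow_log_le_self 2 hfl
      calc (2 : ℝ) ^ K z = ((2 ^ K z : ℕ) : ℝ) := by push_cast; rfl
        _ ≤ (⌊T / (2 * M * r z)⌋₊ : ℝ) := by exact_mod_cast h3
        _ ≤ _ := Nat.floor_le (by positivity)
    calc ∑ χ ∈ Bad z, A χ ≤ (2 ^ K z - 1) * (r z / 2) := h1.trans h2.le
      _ ≤ 2 ^ K z * (r z / 2) := by nlinarith
      _ ≤ T / (2 * M * r z) * (r z / 2) := by
          apply mul_le_mul_of_nonneg_right hK1 (by positivity)
      _ = T / (4 * M) := by field_simp; ring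
  -- the scale is not too small
  have hscale : ∀ z, 0 < r z → T ≤ 4 * M * r z * 2 ^ K z := by
    intro z hrz
    have h1 : T / (2 * M * r z) < 2 ^ (K z + 1) := by
      have h2 : ⌊T / (2 * M * r z)⌋₊ < 2 ^ (K z + 1) := by
        simp only [K, hrz.ne', if_false]
        exact Nat.lt_pow_succ_log_self (by norm_num) _
      calc T / (2 * M * r z) < ⌊T / (2 * M * r z)⌋₊ + 1 := Nat.lt_floor_add_one _
        _ ≤ 2 ^ (K z + 1) := by exact_mod_cast h2
    rw [div_lt_iff₀ (by positivity)] at h1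
    rw [pow_succ] at h1
    linarith
  -- the good set
  let supp : Finset G := univ.filter fun z => c z ≠ 0
  let E : Finset (AddChar G ℂ) := (univ.erase 0).filter fun χ => ∀ z ∈ supp, χ ∉ Bad z
  have hEmass : 3 / 4 * T ≤ ∑ χ ∈ E, A χ := by
    have h1 : T ≤ ∑ χ ∈ E, A χ + ∑ z ∈ supp, ∑ χ ∈ Bad z, A χ := by
      have h2 : T = ∑ χ ∈ E, A χ +
          ∑ χ ∈ (univ.erase (0 : AddChar G ℂ)).filter (fun χ => ¬ ∀ z ∈ supp, χ ∉ Bad z), A χ := by
        rw [hTdef, sum_filter_add_sum_filter_not]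
      have h3 : ∑ χ ∈ (univ.erase (0 : AddChar G ℂ)).filter
          (fun χ => ¬ ∀ z ∈ supp, χ ∉ Bad z), A χ ≤ ∑ z ∈ supp, ∑ χ ∈ Bad z, A χ := by
        calc ∑ χ ∈ (univ.erase (0 : AddChar G ℂ)).filter
              (fun χ => ¬ ∀ z ∈ supp, χ ∉ Bad z), A χ ≤
              ∑ χ, ∑ z ∈ supp, (if χ ∈ Bad z then A χ else 0) := by
              refine le_trans ?_ (sum_le_sum_of_subset_of_nonneg
                (s := (univ.erase (0 : AddChar G ℂ)).filter
                  (fun χ => ¬ ∀ z ∈ supp, χ ∉ Bad z)) (subset_univ _) ?_)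
              · apply sum_le_sum
                intro χ hχ
                have h4 := (mem_filter.1 hχ).2
                push Not at h4
                obtain ⟨z, hz, hz2⟩ := h4
                have := single_le_sum (f := fun z => if χ ∈ Bad z then A χ else 0)
                  (fun z _ => by
                    change 0 ≤ if χ ∈ Bad z then A χ else 0
                    split_ifs
                    · exact hA χ
                    · exact le_rfl) hz
                simpa [hz2] using this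
              · intro χ _ _
                apply sum_nonneg
                intro z _
                split_ifs
                · exact hA χ
                · exact le_rfl
          _ = ∑ z ∈ supp, ∑ χ ∈ Bad z, A χ := by
              rw [sum_comm]
              apply sum_congr rfl; intro z _
              rw [← sum_filter]
              simp
      linarith
    have h5 : ∑ z ∈ supp, ∑ χ ∈ Bad z, A χ ≤ T / 4 := by
      calc ∑ z ∈ supp, ∑ χ ∈ Bad z, A χ ≤ ∑ z ∈ supp, T / (4 * M) := sum_le_sum fun z _ => hbad z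
        _ = (supp.card : ℝ) * (T / (4 * M)) := by simp
        _ ≤ M * (T / (4 * M)) := by
            apply mul_le_mul_of_nonneg_right _ (by positivity)
            exact_mod_cast hM
        _ = T / 4 := by field_simp
    linarith
  have hEpos : 0 < ∑ χ ∈ E, A χ := by linarith [hEmass, hT]
  have hET : ∑ χ ∈ E, A χ ≤ T := by
    apply sum_le_sum_of_subset_of_nonneg (filter_subset _ _)
    intro χ _ _; exact hA χ
  -- the cost
  have hcost : ∀ z, c z * ∑ χ ∈ E, A χ * ‖1 - χ z‖ ≤ π / 2 * (J + 2) * (c z * r z) := by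
    intro z
    by_cases hcz : c z = 0
    · simp [hcz]
    have hz : z ∈ supp := mem_filter.2 ⟨mem_univ _, hcz⟩
    have hmain : ∑ χ ∈ E, A χ * ‖1 - χ z‖ ≤ π / 2 * (J + 2) * r z := by
      rcases (hr0 z).lt_or_eq with hrz | hrz
      · have h1 := one_genL hA hr hadd z (K z) J E (fun χ hχ k hk h2 =>
          ((mem_filter.1 hχ).2 z hz) (mem_filter.2 ⟨mem_univ _, k, hk, h2⟩)) T hET
        have h3 : π / 2 ^ (K z + J) * T ≤ π * r z := by
          have h4 := hscale z hrz
          have h5 : (4 * M : ℝ) ≤ 2 ^ J := by exact_mod_cast hJ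
          rw [div_mul_eq_mul_div, div_le_iff₀ (by positivity), pow_add]
          have h6 : T ≤ 2 ^ J * r z * 2 ^ K z := by
            refine h4.trans ?_
            apply mul_le_mul_of_nonneg_right _ (by positivity)
            exact mul_le_mul_of_nonneg_right h5 hrz.le
          calc π * T ≤ π * (2 ^ J * r z * 2 ^ K z) := mul_le_mul_of_nonneg_left h6 hpi.le
            _ = _ := by ring
        nlinarith
      · have h0 : ∀ χ, A χ * Q χ z = 0 := by
          have h1 : ∑ χ, A χ * Q χ z = 0 :=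
            le_antisymm (by rw [hrz]; exact hr z)
              (sum_nonneg fun χ _ => mul_nonneg (hA χ) (Q_nonneg _ _))
          intro χ
          exact (sum_eq_zero_iff_of_nonneg
            (fun χ _ => mul_nonneg (hA χ) (Q_nonneg χ z))).1 h1 χ (mem_univ _)
        have h2 : ∀ χ ∈ E, A χ * ‖1 - χ z‖ = 0 := by
          intro χ _
          rcases mul_eq_zero.1 (h0 χ) with h | h
          · rw [h, zero_mul]
          · unfold Q at h
            have : ‖1 - χ z‖ = 0 := by simpa using h
            rw [this, mul_zero]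
        rw [sum_eq_zero h2, ← hrz]
        simp
    calc c z * ∑ χ ∈ E, A χ * ‖1 - χ z‖ ≤ c z * (π / 2 * (J + 2) * r z) :=
          mul_le_mul_of_nonneg_left hmain (hc z)
      _ = _ := by ring
  have htot : ∑ χ ∈ E, A χ * ∑ z, c z * ‖1 - χ z‖ ≤ π / 2 * (J + 2) * ∑ z, c z * r z := by
    calc ∑ χ ∈ E, A χ * ∑ z, c z * ‖1 - χ z‖ = ∑ z, c z * ∑ χ ∈ E, A χ * ‖1 - χ z‖ := by
          simp_rw [mul_sum]
          rw [sum_comm]
          apply sum_congr rfl; intro z _
          apply sum_congr rfl; intro χ _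
          ring
      _ ≤ ∑ z, π / 2 * (J + 2) * (c z * r z) := sum_le_sum fun z _ => hcost z
      _ = _ := by rw [mul_sum]
  have hcr : 0 ≤ ∑ z, c z * r z := sum_nonneg fun z _ => mul_nonneg (hc z) (hr0 z)
  obtain ⟨χ, hχE, hχ⟩ := exists_le_of_weighted E A (fun χ => ∑ z, c z * ‖1 - χ z‖)
    (fun χ _ => hA χ) ((2 * π / 3 * (J + 2) * ∑ z, c z * r z) / T) hEpos (by
      refine htot.trans ?_
      rw [div_mul_eq_mul_div (2 * π / 3 * (J + 2) * ∑ z, c z * r z) T, le_div_iff₀ hT]
      have h7 : 0 ≤ 2 * π / 3 * (J + 2) * ∑ z, c z * r z := by positivity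
      calc π / 2 * (J + 2) * (∑ z, c z * r z) * T
          = (2 * π / 3 * (J + 2) * ∑ z, c z * r z) * (3 / 4 * T) := by ring
        _ ≤ _ := mul_le_mul_of_nonneg_left hEmass h7)
  refine ⟨χ, (mem_erase.1 (mem_filter.1 hχE).1).1, ?_⟩
  rw [← le_div_iff₀ hT]
  exact hχ

/-- **Small exponent.** -/
theorem exists_char_exponentL (hA : ∀ χ, 0 ≤ A χ) (hr : ∀ z, ∑ χ, A χ * Q χ z ≤ r z)
    (hadd : ∀ z w, r (z + w) ≤ r z + r w) {c : G → ℝ} (hc : ∀ z, 0 ≤ c z)
    (hT : 0 < ∑ χ ∈ univ.erase (0 : AddChar G ℂ), A χ)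
    (m J : ℕ) (hm0 : m ≠ 0) (hm : ∀ z : G, m • z = 0) (hJ : m ≤ 2 ^ J) :
    ∃ χ : AddChar G ℂ, χ ≠ 0 ∧
      (∑ z, c z * ‖1 - χ z‖) * ∑ χ ∈ univ.erase (0 : AddChar G ℂ), A χ ≤
        π / 2 * J * ∑ z, c z * r z := by
  have hpi := Real.pi_pos
  set T := ∑ χ ∈ univ.erase (0 : AddChar G ℂ), A χ with hTdef
  have hr0 := r_nonnegL hA hr
  have hmain : ∀ z, ∑ χ ∈ univ.erase (0 : AddChar G ℂ), A χ * ‖1 - χ z‖ ≤ π / 2 * J * r z := by
    intro z
    have h1 : ∀ χ ∈ univ.erase (0 : AddChar G ℂ), A χ * ‖1 - χ z‖ ≤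
        ∑ k ∈ range J, (π / 2 ^ k) * (if (χ z ^ 2 ^ k).re ≤ 0 then A χ else 0) := by
      intro χ _
      have hnn : ∀ k ∈ range J, 0 ≤ (π / 2 ^ k) * (if (χ z ^ 2 ^ k).re ≤ 0 then A χ else 0) := by
        intro k _
        apply mul_nonneg (by positivity)
        split_ifs
        · exact hA χ
        · exact le_rfl
      by_cases h0 : χ z = 1
      · have h00 : A χ * ‖1 - χ z‖ = 0 := by rw [h0]; simp
        rw [h00]
        exact sum_nonneg hnn
      obtain ⟨k, hk1, hk2, hk3⟩ := scale_exists (χ.norm_apply z) h0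
      have hk4 : 2 ^ (k + 1) ≤ m := by
        apply hk3 m _ hm0
        rw [← AddChar.map_nsmul_eq_pow, hm z, AddChar.map_zero_eq_one]
      have hkJ : k < J := by
        have : 2 ^ (k + 1) ≤ 2 ^ J := hk4.trans hJ
        have := (Nat.pow_le_pow_iff_right (by norm_num)).1 this
        omega
      have := single_le_sum hnn (mem_range.2 hkJ)
      simp only [hk2, if_true] at this
      refine le_trans ?_ this
      rw [mul_comm]; exact mul_le_mul_of_nonneg_right hk1 (hA χ)
    calc _ ≤ ∑ χ ∈ univ.erase (0 : AddChar G ℂ), ∑ k ∈ range J, (π / 2 ^ k) *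
          (if (χ z ^ 2 ^ k).re ≤ 0 then A χ else 0) := sum_le_sum h1
      _ = ∑ k ∈ range J, (π / 2 ^ k) *
          ∑ χ ∈ univ.erase (0 : AddChar G ℂ), (if (χ z ^ 2 ^ k).re ≤ 0 then A χ else 0) := by
          rw [sum_comm]
          simp_rw [← mul_sum]
      _ ≤ ∑ k ∈ range J, (π / 2 ^ k) * (2 ^ k * r z / 2) := by
          apply sum_le_sum
          intro k _
          apply mul_le_mul_of_nonneg_left _ (by positivity)
          refine le_trans ?_ (mass_leL hA hr hadd z k)
          rw [sum_filter]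
          apply sum_le_sum_of_subset_of_nonneg (subset_univ _)
          intro χ _ _
          split_ifs
          · exact hA χ
          · exact le_rfl
      _ = π / 2 * J * r z := by
          have : ∀ k ∈ range J, (π / 2 ^ k) * (2 ^ k * r z / 2) = π / 2 * r z := by
            intro k _
            have : (2 : ℝ) ^ k ≠ 0 := by positivity
            field_simp
          rw [sum_congr rfl this]
          simp
          ring
  have htot : ∑ χ ∈ univ.erase (0 : AddChar G ℂ), A χ * ∑ z, c z * ‖1 - χ z‖ ≤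
      π / 2 * J * ∑ z, c z * r z := by
    calc ∑ χ ∈ univ.erase (0 : AddChar G ℂ), A χ * ∑ z, c z * ‖1 - χ z‖
        = ∑ z, c z * ∑ χ ∈ univ.erase (0 : AddChar G ℂ), A χ * ‖1 - χ z‖ := by
          simp_rw [mul_sum]
          rw [sum_comm]
          apply sum_congr rfl; intro z _
          apply sum_congr rfl; intro χ _
          ring
      _ ≤ ∑ z, c z * (π / 2 * J * r z) :=
          sum_le_sum fun z _ => mul_le_mul_of_nonneg_left (hmain z) (hc z)
      _ = _ := by rw [mul_sum]; apply sum_congr rfl; intro z _; ring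
  obtain ⟨χ, hχE, hχ⟩ := exists_le_of_weighted (univ.erase (0 : AddChar G ℂ)) A
    (fun χ => ∑ z, c z * ‖1 - χ z‖)
    (fun χ _ => hA χ) ((π / 2 * J * ∑ z, c z * r z) / T) hT (by
      refine htot.trans ?_
      rw [div_mul_cancel₀ _ hT.ne'])
  refine ⟨χ, (mem_erase.1 hχE).1, ?_⟩
  rw [← le_div_iff₀ hT]
  exact hχ

end

section
variable {A : AddChar G ℂ → ℝ} {r c : G → ℝ}

theorem bound_supportL [Nontrivial G] (hA : ∀ χ, 0 ≤ A χ) (hr : ∀ z, ∑ χ, A χ * Q χ z ≤ r z)
    (hadd : ∀ z w, r (z + w) ≤ r z + r w) (hc : ∀ z, 0 ≤ c z) (hs : ∀ z, c (-z) = c z)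
    (hT : 0 < ∑ χ ∈ univ.erase (0 : AddChar G ℂ), A χ)
    (M : ℕ) (hM1 : 1 ≤ M) (hM : (univ.filter fun z => c z ≠ 0).card ≤ M) :
    phi (fun x y => c (x - y)) * Fintype.card G * (∑ χ ∈ univ.erase (0 : AddChar G ℂ), A χ) ≤
      4 * π / 3 * (Nat.clog 2 (4 * M) + 2) * ∑ z, c z * r z := by
  obtain ⟨χ, hχ, hcost⟩ := exists_char_supportL hA hr hadd hc hT M (Nat.clog 2 (4 * M)) hM1 hM
    (Nat.le_pow_clog (by norm_num) _)
  have h2 := phi_le_char hc hs hχ
  have h3 := mul_le_mul_of_nonneg_right h2 hT.le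
  linarith

theorem bound_exponentL [Nontrivial G] (hA : ∀ χ, 0 ≤ A χ) (hr : ∀ z, ∑ χ, A χ * Q χ z ≤ r z)
    (hadd : ∀ z w, r (z + w) ≤ r z + r w) (hc : ∀ z, 0 ≤ c z) (hs : ∀ z, c (-z) = c z)
    (hT : 0 < ∑ χ ∈ univ.erase (0 : AddChar G ℂ), A χ) :
    phi (fun x y => c (x - y)) * Fintype.card G * (∑ χ ∈ univ.erase (0 : AddChar G ℂ), A χ) ≤
      π * Nat.clog 2 (AddMonoid.exponent G) * ∑ z, c z * r z := by
  obtain ⟨χ, hχ, hcost⟩ := exists_char_exponentL hA hr hadd hc hT (AddMonoid.exponent G)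
    (Nat.clog 2 (AddMonoid.exponent G)) AddMonoid.exponent_ne_zero_of_finite
    (fun z => AddMonoid.exponent_nsmul_eq_zero z) (Nat.le_pow_clog (by norm_num) _)
  have h2 := phi_le_char hc hs hχ
  have h3 := mul_le_mul_of_nonneg_right h2 hT.le
  linarith

theorem bound_cardL [Nontrivial G] (hA : ∀ χ, 0 ≤ A χ) (hr : ∀ z, ∑ χ, A χ * Q χ z ≤ r z)
    (hadd : ∀ z w, r (z + w) ≤ r z + r w) (hre : ∀ z, r (-z) = r z)
    (hc : ∀ z, 0 ≤ c z) (hs : ∀ z, c (-z) = c z)
    (hT : 0 < ∑ χ ∈ univ.erase (0 : AddChar G ℂ), A χ)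
    (m : ℕ) (hm : 4 * (8 * (1 + Real.exp 1) * Real.log (Fintype.card G)) *
      Real.log (2 * Fintype.card G) ≤ m) (hm1 : 1 ≤ m) :
    phi (fun x y => c (x - y)) * Fintype.card G * (∑ χ ∈ univ.erase (0 : AddChar G ℂ), A χ) ≤
      32 * π / 3 * (Nat.clog 2 (8 * m) + 2) * ∑ z, c z * r z := by
  have hn : (0 : ℝ) < Fintype.card G := by
    have := Fintype.card_pos (α := G); positivity
  have hpi := Real.pi_pos
  have hr0 := r_nonnegL hA hr
  have hcr : 0 ≤ ∑ z, c z * r z := sum_nonneg fun z _ => mul_nonneg (hc z) (hr0 z)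
  set T := ∑ χ ∈ univ.erase (0 : AddChar G ℂ), A χ with hTdef
  by_cases hpos : ∀ χ : AddChar G ℂ, χ ≠ 0 → 0 < Lc c χ
  · obtain ⟨σ, hσ0, hσ, hσD⟩ := exists_sensitivity hc hpos
    have hrpos : 0 < ∑ z, c z * r z := by
      obtain ⟨χ, hχ, hχA⟩ : ∃ χ ∈ univ.erase (0 : AddChar G ℂ), 0 < A χ := by
        by_contra hcon
        push Not at hcon
        exact absurd hT (not_lt.2 (sum_nonpos hcon))
      have h1 : 0 < A χ * Lc c χ := mul_pos hχA (hpos χ (ne_of_mem_erase hχ))
      have h2 : A χ * Lc c χ ≤ ∑ χ, A χ * Lc c χ :=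
        single_le_sum (f := fun χ => A χ * Lc c χ)
            (fun χ _ => mul_nonneg (hA χ) (Lc_nonneg hc χ)) (mem_univ χ)
      have h3 : ∑ χ, A χ * Lc c χ ≤ ∑ z, c z * r z := by
        unfold Lc
        simp_rw [mul_sum]
        rw [sum_comm]
        apply sum_le_sum
        intro z _
        calc ∑ χ, A χ * (c z * Q χ z) = c z * ∑ χ, A χ * Q χ z := by
              rw [mul_sum]; apply sum_congr rfl; intro χ _; ring
          _ ≤ _ := mul_le_mul_of_nonneg_left (hr z) (hc z)
      linarith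
    obtain ⟨c', hc', hs', hcard, hLL, hcost⟩ := exists_sparsifier hc hpos hσ0 hσ hσD hr0 hre hrpos
      m hm
    have h2 := phi_le_of_Lc_le hc hs hs' (by norm_num : (0:ℝ) < 4) hLL
    have h3 := bound_supportL hA hr hadd hc' hs' hT (2 * m) (by omega) hcard
    rw [show 4 * (2 * m) = 8 * m by ring] at h3
    rw [← hTdef] at h3
    have h5 : 4 * π / 3 * (Nat.clog 2 (8 * m) + 2) * ∑ z, c' z * r z ≤
        4 * π / 3 * (Nat.clog 2 (8 * m) + 2) * (2 * ∑ z, c z * r z) :=
      mul_le_mul_of_nonneg_left hcost (by positivity)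
    have h6 : phi (fun x y => c (x - y)) * Fintype.card G * T ≤
        4 * (phi (fun x y => c' (x - y)) * Fintype.card G * T) := by
      have h7 := mul_le_mul_of_nonneg_right h2 (mul_nonneg hn.le hT.le)
      linarith
    linarith
  · push Not at hpos
    obtain ⟨χ, hχ, hχL⟩ := hpos
    have h0 : ∀ z, c z * Q χ z = 0 := by
      have h2 : Lc c χ = 0 := le_antisymm hχL (Lc_nonneg hc χ)
      intro z
      exact (sum_eq_zero_iff_of_nonneg
        (fun z _ => mul_nonneg (hc z) (Q_nonneg χ z))).1 h2 z (mem_univ _)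
    have h2 := phi_le_char hc hs hχ
    have h3 : ∑ z, c z * ‖1 - χ z‖ = 0 := by
      apply sum_eq_zero
      intro z _
      rcases mul_eq_zero.1 (h0 z) with h | h
      · rw [h, zero_mul]
      · unfold Q at h
        have : ‖1 - χ z‖ = 0 := by simpa using h
        rw [this, mul_zero]
    rw [h3, mul_zero] at h2
    have h4 : phi (fun x y => c (x - y)) * Fintype.card G * T ≤ 0 :=
      mul_nonpos_of_nonpos_of_nonneg h2 hT.le
    refine h4.trans ?_
    positivity

end

theorem lin {Γ : Type*} [AddCommGroup Γ] [Fintype Γ] [DecidableEq Γ] [Nontrivial Γ]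
    {A : AddChar Γ ℂ → ℝ} {r c : Γ → ℝ} (hA : ∀ χ, 0 ≤ A χ)
    (hr : ∀ z, ∑ χ, A χ * Q χ z ≤ r z) (hadd : ∀ z w, r (z + w) ≤ r z + r w)
    (hre : ∀ z, r (-z) = r z) (hc : ∀ z, 0 ≤ c z) (hs : ∀ z, c (-z) = c z)
    (hT : 0 < ∑ χ ∈ univ.erase (0 : AddChar Γ ℂ), A χ) :
    phi (fun x y => c (x - y)) * Fintype.card Γ *
        (∑ χ ∈ univ.erase (0 : AddChar Γ ℂ), A χ) ≤
      550 * (1 + Real.log (1 + min ((univ.filter fun z => c z ≠ 0).card : ℝ)
        (min (AddMonoid.exponent Γ : ℝ) (Real.log (Fintype.card Γ))))) * ∑ z, c z * r z := by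
  have hpi : π < 3.15 := Real.pi_lt_d2
  have hpi0 := Real.pi_pos
  have hn2 : (2 : ℝ) ≤ Fintype.card Γ := by exact_mod_cast Fintype.one_lt_card (α := Γ)
  have hlogn : 0 < Real.log (Fintype.card Γ) := Real.log_pos (by linarith)
  have hr0 := r_nonnegL hA hr
  have hob : 0 ≤ ∑ z, c z * r z := sum_nonneg fun z _ => mul_nonneg (hc z) (hr0 z)
  set M := (univ.filter fun z => c z ≠ 0).card with hMdef
  set X := min (M : ℝ) (min (AddMonoid.exponent Γ : ℝ) (Real.log (Fintype.card Γ))) with hX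
  have hX0 : 0 ≤ X := by
    rw [hX]
    exact le_min (by positivity) (le_min (by positivity) hlogn.le)
  have hlogX : 0 ≤ Real.log (1 + X) := Real.log_nonneg (by linarith)
  rcases min_choice (M : ℝ) (min (AddMonoid.exponent Γ : ℝ) (Real.log (Fintype.card Γ))) with h | h
  · -- support
    rw [← hX] at h
    rcases Nat.eq_zero_or_pos M with hM0 | hM0
    · have hz : ∀ z, c z = 0 := by
        intro z
        by_contra hcz
        have h0 : (univ.filter fun z => c z ≠ 0) = ∅ := card_eq_zero.1 hM0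
        have h00 : z ∈ (univ.filter fun z => c z ≠ 0) := mem_filter.2 ⟨mem_univ _, hcz⟩
        rw [h0] at h00
        simp at h00
      have hp := phi_eq_zero_of_c hz
      have hn : (0 : ℝ) ≤ Fintype.card Γ := by positivity
      have h4 : phi (fun x y => c (x - y)) * Fintype.card Γ *
          (∑ χ ∈ univ.erase (0 : AddChar Γ ℂ), A χ) ≤ 0 :=
        mul_nonpos_of_nonpos_of_nonneg (mul_nonpos_of_nonpos_of_nonneg hp hn) hT.le
      refine h4.trans ?_
      positivity
    · have h2 := bound_supportL hA hr hadd hc hs hT M hM0 le_rfl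
      refine h2.trans ?_
      apply mul_le_mul_of_nonneg_right _ hob
      have h3 : (Nat.clog 2 (4 * M) : ℝ) ≤ 2 + Nat.clog 2 M := by
        have := clog_mul_le 2 M
        exact_mod_cast this
      have h4 := logb_bound M hM0
      have hM' : (1 : ℝ) ≤ M := by exact_mod_cast hM0
      have h5 : Real.log M ≤ Real.log (1 + X) := by
        apply Real.log_le_log (by positivity)
        rw [h]; linarith
      have h6 : (Nat.clog 2 (4 * M) : ℝ) + 2 ≤ 5 * (1 + Real.log (1 + X)) := by linarith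
      have h7 : 4 * π / 3 ≤ 9 := by linarith
      calc 4 * π / 3 * (Nat.clog 2 (4 * M) + 2) ≤ 9 * (5 * (1 + Real.log (1 + X))) :=
            mul_le_mul h7 h6 (by positivity) (by norm_num)
        _ ≤ _ := by nlinarith
  · rw [← hX] at h
    rcases min_choice (AddMonoid.exponent Γ : ℝ) (Real.log (Fintype.card Γ)) with h' | h'
    · -- exponent
      rw [h'] at h
      have h2 := bound_exponentL hA hr hadd hc hs hT
      refine h2.trans ?_
      apply mul_le_mul_of_nonneg_right _ hob
      have he1 : 1 ≤ AddMonoid.exponent Γ :=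
        Nat.one_le_iff_ne_zero.2 AddMonoid.exponent_ne_zero_of_finite
      have h4 := logb_bound (AddMonoid.exponent Γ) he1
      have he' : (1 : ℝ) ≤ AddMonoid.exponent Γ := by exact_mod_cast he1
      have h5 : Real.log (AddMonoid.exponent Γ) ≤ Real.log (1 + X) := by
        apply Real.log_le_log (by positivity)
        rw [h]; linarith
      have h6 : (Nat.clog 2 (AddMonoid.exponent Γ) : ℝ) ≤ 2 * (1 + Real.log (1 + X)) := by linarith
      calc π * Nat.clog 2 (AddMonoid.exponent Γ) ≤ 7 * (2 * (1 + Real.log (1 + X))) :=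
            mul_le_mul (by linarith) h6 (by positivity) (by norm_num)
        _ ≤ _ := by nlinarith
    · -- order
      rw [h'] at h
      set L := Real.log (Fintype.card Γ) with hL
      set m := ⌈250 * (1 + L) ^ 2⌉₊ with hm
      have hmle : 250 * (1 + L) ^ 2 ≤ m := Nat.le_ceil _
      have hm1 : 1 ≤ m := by
        rw [hm]
        apply Nat.one_le_ceil_iff.2
        positivity
      have hlog2 : Real.log (2 * Fintype.card Γ) ≤ 1 + L := by
        rw [Real.log_mul (by norm_num) (by positivity)]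
        have := Real.log_two_lt_d9
        linarith
      have he : Real.exp 1 < 2.7182818286 := Real.exp_one_lt_d9
      have hmcond : 4 * (8 * (1 + Real.exp 1) * L) * Real.log (2 * Fintype.card Γ) ≤ m := by
        refine le_trans ?_ hmle
        have h3 : 4 * (8 * (1 + Real.exp 1) * L) ≤ 120 * (1 + L) := by nlinarith
        calc 4 * (8 * (1 + Real.exp 1) * L) * Real.log (2 * Fintype.card Γ)
            ≤ 120 * (1 + L) * (1 + L) :=
              mul_le_mul h3 hlog2 (Real.log_nonneg (by linarith)) (by positivity)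
          _ ≤ _ := by nlinarith [sq_nonneg (1 + L)]
      have h2 := bound_cardL hA hr hadd hre hc hs hT m hmcond hm1
      refine h2.trans ?_
      apply mul_le_mul_of_nonneg_right _ hob
      have hmub : (m : ℝ) ≤ 2 ^ 8 * (1 + L) ^ 2 := by
        have := Nat.ceil_lt_add_one (R := ℝ) (a := 250 * (1 + L) ^ 2) (by positivity)
        have h3 : (1 : ℝ) ≤ (1 + L) ^ 2 := by nlinarith
        have h4 : (m : ℝ) < 250 * (1 + L) ^ 2 + 1 := this
        linarith
      have h3 : (Nat.clog 2 (8 * m) : ℝ) ≤ 12 + 2 * (1 + 2 * Real.log (1 + L)) := by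
        -- `8 m ≤ 2^11 (1+L)^2 ≤ 2^11 q^2` with `q = ⌈1+L⌉`
        set q := ⌈1 + L⌉₊ with hq
        have hq1 : 1 ≤ q := by
          rw [hq]
          apply Nat.one_le_ceil_iff.2
          positivity
        have hqle : 1 + L ≤ q := Nat.le_ceil _
        have h4 : 8 * m ≤ 2 ^ (11 + 2 * Nat.clog 2 q) := by
          have h5 : ((8 * m : ℕ) : ℝ) ≤ 2 ^ 11 * (q : ℝ) ^ 2 := by
            push_cast
            have : (1 + L) ^ 2 ≤ (q : ℝ) ^ 2 := pow_le_pow_left₀ (by positivity) hqle 2
            nlinarith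
          have h6 : 8 * m ≤ 2 ^ 11 * q ^ 2 := by exact_mod_cast h5
          have h7 : q ≤ 2 ^ Nat.clog 2 q := Nat.le_pow_clog (by norm_num) _
          calc 8 * m ≤ 2 ^ 11 * q ^ 2 := h6
            _ ≤ 2 ^ 11 * (2 ^ Nat.clog 2 q) ^ 2 :=
                Nat.mul_le_mul_left _ (Nat.pow_le_pow_left h7 2)
            _ = _ := by rw [← pow_mul, ← pow_add]; ring_nf
        have h5 : Nat.clog 2 (8 * m) ≤ 11 + 2 * Nat.clog 2 q := Nat.clog_le_of_le_pow h4
        have h6 := logb_bound q hq1
        have h7 : Real.log q ≤ Real.log (1 + L) + 1 := by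
          have h8 : (q : ℝ) ≤ Real.exp 1 * (1 + L) := by
            have h9 : (q : ℝ) < (1 + L) + 1 := Nat.ceil_lt_add_one (by positivity)
            have h10 : 2 ≤ Real.exp 1 := by
              have := Real.add_one_le_exp (1 : ℝ); linarith
            nlinarith
          have h11 := Real.log_le_log (by positivity) h8
          rw [Real.log_mul (by positivity) (by positivity), Real.log_exp] at h11
          linarith
        have h5' : (Nat.clog 2 (8 * m) : ℝ) ≤ 11 + 2 * Nat.clog 2 q := by exact_mod_cast h5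
        have h8 : (q : ℝ) ≤ 2 * (1 + L) := by
          have h9 : (q : ℝ) < (1 + L) + 1 := Nat.ceil_lt_add_one (by positivity)
          linarith
        have h9 : Nat.clog 2 q ≤ 1 + Nat.clog 2 q := by omega
        -- a sharper estimate for `clog q` via `log`
        have h10 : (Nat.clog 2 q : ℝ) ≤ 3 / 2 + 2 * Real.log (1 + L) := by
          rcases Nat.eq_zero_or_pos (Nat.clog 2 q) with hz | hz
          · rw [hz]
            have : 0 ≤ Real.log (1 + L) := Real.log_nonneg (by linarith)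
            push_cast
            linarith
          · have hlt : 2 ^ (Nat.clog 2 q - 1) < q := by
              apply Nat.pow_pred_clog_lt_self (by norm_num)
              by_contra hcon
              have : q = 1 := by omega
              rw [this] at hz
              simp at hz
            have hlt2 : 2 ^ (Nat.clog 2 q - 1) + 1 ≤ q := hlt
            have hlt3 : (2 : ℝ) ^ (Nat.clog 2 q - 1) ≤ 1 + L := by
              have h12 : ((2 : ℝ) ^ (Nat.clog 2 q - 1)) + 1 ≤ q := by exact_mod_cast hlt2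
              have h13 : (q : ℝ) < (1 + L) + 1 := Nat.ceil_lt_add_one (by positivity)
              linarith
            have h12 := Real.log_le_log (by positivity) hlt3
            rw [Real.log_pow] at h12
            have h13 : ((Nat.clog 2 q - 1 : ℕ) : ℝ) = (Nat.clog 2 q : ℝ) - 1 := by
              rw [Nat.cast_sub hz]; simp
            rw [h13] at h12
            have h14 : 1 / 2 ≤ Real.log 2 := by
              have := Real.log_two_gt_d9
              linarith
            have h15 : (0 : ℝ) ≤ (Nat.clog 2 q : ℝ) - 1 := by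
              rw [← h13]; positivity
            nlinarith
        linarith
      have h4 : Real.log (1 + L) ≤ Real.log (1 + X) := by rw [h]
      have h5 : (Nat.clog 2 (8 * m) : ℝ) + 2 ≤ 16 * (1 + Real.log (1 + X)) := by linarith
      have h6 : 32 * π / 3 ≤ 33.6 := by linarith
      calc 32 * π / 3 * (Nat.clog 2 (8 * m) + 2) ≤ 33.6 * (16 * (1 + Real.log (1 + X))) :=
            mul_le_mul h6 h5 (by positivity) (by norm_num)
        _ ≤ _ := by nlinarith

end Vale.Agent.P318.R2.H969
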