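import Vale.Agent.P318.R2.H969.Psu
import Vale.Agent.P318.R2.H924.GapTwo

/-!
# The gap of the projective special unitary groups
-/

namespace Vale.Agent.P318.R2.H969

/-- Simple projective special unitary groups have the gap `1 / 25088`. -/
theorem gap_of_isPSU {T : Type} [Group T] [Finite T] [IsSimpleGroup T] (hT : IsPSU T) :
    Vale.Agent.P318.R2.H678.Gap T (1 / 25088) := by
  have h1 := Vale.Agent.P318.R2.H924.gap_of_two (m := 112) (by norm_num) (two_of_isPSU hT)
  norm_num at h1 ⊢
  exact h1

end Vale.Agent.P318.R2.H969
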