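import Vale.Agent.P318.R2.H969.Un3

/-!
# Projective special unitary groups
-/

namespace Vale.Agent.P318.R2.H969

open Vale.Agent.P180.R2.H589.Un (Iv FF Hm UG SUG)
open Vale.Agent.P318.R2.H402 (Two Pr Pr.mono Pr.map)

/-- `T` is a projective special unitary group `PSU_n(q)`, `n ≥ 3`, `(n, q) ≠ (3, 2)`: there are a
finite field `K` with a nontrivial involution `θ` whose fixed field is `FF θ` (with `q` elements)
and a nondegenerate `θ`-hermitian form `h` on a `K`-vector space `V` of dimension `n`, such that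
`T` is isomorphic to the group `SUG h` of the isometries of determinant one of `h`, modulo its
centre. -/
def IsPSU (T : Type) [Group T] : Prop :=
  ∃ (K V : Type) (_ : Field K) (_ : Finite K) (_ : AddCommGroup V) (_ : Module K V)
    (_ : Module.Finite K V) (θ : K ≃+* K) (h : V → V → K), Iv θ ∧ Hm θ h ∧
    3 ≤ Module.finrank K V ∧ (2 < Nat.card (FF θ) ∨ 4 ≤ Module.finrank K V) ∧
    Nonempty (T ≃* SUG h ⧸ Subgroup.center (SUG h))

theorem two_mono {T : Type*} [Group T] {m n : ℕ} (hmn : m ≤ n) (h : Two T m) : Two T n := by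
  obtain ⟨A, B, hAB, hP⟩ := h
  refine ⟨A, B, hAB, fun x hx y hy => ?_⟩
  obtain ⟨w, h1, h2, h3⟩ := hP x hx y hy
  exact ⟨w, h1.trans hmn, h2, h3⟩

theorem two_congr {T S : Type*} [Group T] [Group S] (e : T ≃* S) {m : ℕ} (h : Two S m) :
    Two T m := by
  obtain ⟨A, B, hAB, hP⟩ := h
  refine ⟨A.map e.symm.toMonoidHom, B.map e.symm.toMonoidHom, ?_, fun x hx y hy => ?_⟩
  · rw [← Subgroup.map_sup, hAB, ← MonoidHom.range_eq_map, MonoidHom.range_eq_top]
    exact e.symm.surjective
  · have hx' : e x ≠ 1 := fun h0 => hx ((map_eq_one_iff e e.injective).mp h0)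
    have key : ∀ s, (s ∈ A ∨ s ∈ B) → Pr m x (e.symm s) := by
      intro s hs
      have h1 : Pr m (e x) s := hP (e x) hx' s hs
      have h2 := h1.map e.symm.toMonoidHom
      have h3 : e.symm.toMonoidHom (e x) = x := e.symm_apply_apply x
      rw [h3] at h2
      exact h2
    rcases hy with ⟨s, hs, rfl⟩ | ⟨s, hs, rfl⟩
    · exact key s (Or.inl hs)
    · exact key s (Or.inr hs)

/-- **Projective special unitary groups.** A simple group `PSU_n(q)`, `n ≥ 3`, is generated by two
subgroups all of whose elements are products of at most 112 conjugates of `x` and `x⁻¹`, for every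
`x ≠ 1`. -/
theorem two_of_isPSU {T : Type} [Group T] [IsSimpleGroup T] (hT : IsPSU T) : Two T 112 := by
  obtain ⟨K, V, _, _, _, _, _, θ, h, hθ, hB, hd, hq, ⟨e⟩⟩ := hT
  rcases hq with hq | hq
  · exact two_mono (by norm_num) (two_congr e (two_PSU hθ hq hB hd))
  · have : IsSimpleGroup (SUG h ⧸ Subgroup.center (SUG h)) := e.symm.isSimpleGroup
    exact two_congr e (two_PSU4 hθ hB hq)

end Vale.Agent.P318.R2.H969
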