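import Vale.Agent.P180.R2.H589.Un.Gen
import Vale.Agent.P318.R2.H402.TwoDef

/-!
# Special unitary groups: products of few conjugates, first part

Every transvection is a product of at most eight conjugates of `g` and `g⁻¹`, for every isometry
`g` of determinant one which is not a scalar.
-/

set_option linter.all false

namespace Vale.Agent.P318.R2.H969

open Subgroup Module
open Vale.Agent.P180.R2.H589.Un
open Vale.Agent.P180.R2.H589.Sp (oo oo_ne cj cj_apply cj_symm_apply)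
open Vale.Agent.P318.R2.H402 (Two Pr Pr.one Pr.mono Pr.map Pr.conj Pr.isConj Pr.mul Pr.self
  Pr.inv_self Pr.inv Pr.comm)

section A

variable {K V : Type*} [Field K] [AddCommGroup V] [Module K V] {θ : K ≃+* K} (hθ : Iv θ)
  {h : V → V → K} (hB : Hm θ h)

include hθ hB

/-- the mixed values of `h x (g y)` for a hyperbolic pair -/
theorem opp_aux {g : V ≃ₗ[K] V} (hg : ∀ v, h v v = 0 → h v (g v) = 0) {v w : V} (hv : h v v = 0)
    (hw : h w w = 0) (hvw : h v w = 1) :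
    h w (g v) = h v (g w) ∧ ∀ x, h x v = 0 → h x w = 0 → h w (g x) = 0 ∧ h x (g w) = 0 ∧
      h x (g x) + h v (g x) + h x (g v) = h x x * h v (g w) := by
  obtain ⟨d, hd, hd'⟩ := exists_dl hθ
  have hwv : h w v = 1 := by rw [hB.herm v w, hvw, map_one]
  have hFv := hg v hv
  have hFw := hg w hw
  have h1 : h w (g v) = h v (g w) := by
    have e1 : h (v + d • w) (v + d • w) = 0 := by
      simp only [hB.addl, hB.addr, hB.sml, hB.smr, hv, hw, hvw, hwv, hd']
      ring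
    have e2 := hg _ e1
    simp only [map_add, map_smul, hB.addl, hB.addr, hB.sml, hB.smr, hFv, hFw, hd'] at e2
    have e3 : d * (h w (g v) - h v (g w)) = 0 := by linear_combination e2
    exact sub_eq_zero.mp ((mul_eq_zero.mp e3).resolve_left hd)
  refine ⟨h1, ?_⟩
  -- the general equation
  have key : ∀ x, h x v = 0 → h x w = 0 → ∀ s, s + θ s = - h x x →
      s * h w (g x) + θ s * h x (g w) + (h x (g x) + h v (g x) + h x (g v)) =
        h x x * h v (g w) := by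
    intro x hx1 hx2 s hs
    have hx1' := hB.swap hx1
    have hx2' := hB.swap hx2
    have e1 : h (v + s • w + x) (v + s • w + x) = 0 := by
      simp only [hB.addl, hB.addr, hB.sml, hB.smr, hv, hw, hvw, hwv, hx1, hx2, hx1', hx2']
      linear_combination hs
    have e2 := hg _ e1
    simp only [map_add, map_smul, hB.addl, hB.addr, hB.sml, hB.smr, hFv, hFw, h1] at e2
    linear_combination e2 - h v (g w) * hs
  have key2 : ∀ x, h x v = 0 → h x w = 0 → h w (g x) = h x (g w) := by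
    intro x hx1 hx2
    obtain ⟨s, hs⟩ := exists_tr hθ (a := - h x x) (by rw [map_neg, hB.fix])
    have e1 := key x hx1 hx2 s hs
    have e2 := key x hx1 hx2 (s + d) (by rw [map_add, hd']; linear_combination hs)
    rw [map_add, hd'] at e2
    have e3 : d * (h w (g x) - h x (g w)) = 0 := by linear_combination e2 - e1
    exact sub_eq_zero.mp ((mul_eq_zero.mp e3).resolve_left hd)
  obtain ⟨c, hc⟩ := hθ.ne
  intro x hx1 hx2
  have e1 := key2 x hx1 hx2
  have e2 := key2 (c • x) (by rw [hB.sml, hx1, mul_zero]) (by rw [hB.sml, hx2, mul_zero])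
  rw [map_smul, hB.smr, hB.sml] at e2
  have e3 : (θ c - c) * h w (g x) = 0 := by linear_combination e2 - c * e1
  have e4 : h w (g x) = 0 := (mul_eq_zero.mp e3).resolve_left (sub_ne_zero.mpr hc)
  have e5 : h x (g w) = 0 := by rw [← e1, e4]
  refine ⟨e4, e5, ?_⟩
  obtain ⟨s, hs⟩ := exists_tr hθ (a := - h x x) (by rw [map_neg, hB.fix])
  have e6 := key x hx1 hx2 s hs
  rw [e4, e5] at e6
  linear_combination e6

/-- A linear map which maps no isotropic vector to an opposite one is a scalar. -/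
theorem exists_opp (hV : ∃ v : V, v ≠ 0 ∧ h v v = 0) {g : V ≃ₗ[K] V}
    (hg : ¬ ∃ l : K, ∀ x, g x = l • x) : ∃ v, h v v = 0 ∧ h v (g v) ≠ 0 := by
  by_contra hcon
  push Not at hcon
  obtain ⟨v, hv0, hv⟩ := hV
  obtain ⟨w, hw, hvw⟩ := exists_pair hθ hB hv0 hv
  have hwv : h w v = 1 := by rw [hB.herm v w, hvw, map_one]
  obtain ⟨h1, h2⟩ := opp_aux hθ hB hcon hv hw hvw
  obtain ⟨-, h3⟩ := opp_aux hθ hB hcon hw hv hwv
  have hFv := hcon v hv
  have hFw := hcon w hw
  -- all the diagonal values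
  have h4 : ∀ y, h y (g y) = h v (g w) * h y y := by
    intro y
    obtain ⟨x, hx⟩ : ∃ x, x = y - h y w • v - h y v • w := ⟨_, rfl⟩
    have hx1 : h x v = 0 := by
      rw [hx, hB.subl, hB.subl, hB.sml, hB.sml, hv, hwv]
      ring
    have hx2 : h x w = 0 := by
      rw [hx, hB.subl, hB.subl, hB.sml, hB.sml, hw, hvw]
      ring
    have hx1' := hB.swap hx1
    have hx2' := hB.swap hx2
    obtain ⟨a, ha⟩ : ∃ a, a = h y w := ⟨_, rfl⟩
    obtain ⟨b, hb⟩ : ∃ b, b = h y v := ⟨_, rfl⟩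
    have hy : y = a • v + b • w + x := by
      rw [hx, ha, hb]
      module
    obtain ⟨e1, e2, e3⟩ := h2 x hx1 hx2
    obtain ⟨e4, e5, e6⟩ := h3 x hx2 hx1
    rw [hy]
    simp only [map_add, map_smul, hB.addl, hB.addr, hB.sml, hB.smr, hFv, hFw, e1, e2, e4, e5, h1,
      hv, hw, hvw, hwv, hx1, hx2, hx1', hx2']
    rw [e4, e5] at e3
    linear_combination e3
  have h5 : ∀ x y, h x (g y) = h v (g w) * h x y := by
    have h6 : ∀ x y, (h x (g y) - h v (g w) * h x y) + (h y (g x) - h v (g w) * h y x) = 0 := by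
      intro x y
      have e1 := h4 (x + y)
      have e2 := h4 x
      have e3 := h4 y
      simp only [map_add, hB.addl, hB.addr] at e1
      linear_combination e1 - e2 - e3
    obtain ⟨c, hc⟩ := hθ.ne
    intro x y
    have e1 := h6 x y
    have e2 := h6 (c • x) y
    rw [map_smul, hB.smr, hB.smr, hB.sml, hB.sml] at e2
    have e3 : (c - θ c) * (h x (g y) - h v (g w) * h x y) = 0 := by
      linear_combination e2 - θ c * e1
    have e4 := (mul_eq_zero.mp e3).resolve_left (sub_ne_zero.mpr hc.symm)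
    exact sub_eq_zero.mp e4
  apply hg
  refine ⟨θ (h v (g w)), fun y => ?_⟩
  have h6 : g y - θ (h v (g w)) • y = 0 := by
    apply hB.nd
    intro x
    apply hB.swap
    rw [hB.subr, hB.smr, hθ.inv, h5 x y, sub_self]
  exact sub_eq_zero.mp h6

end A

section B

variable {K V : Type*} [Field K] [AddCommGroup V] [Module K V] {θ : K ≃+* K}
  {h : V → V → K} (hB : Hm θ h)

open Classical in
/-- transvections as elements of the special unitary group -/
noncomputable def tv (hB : Hm θ h) (a : V) (c : K) : SUG h :=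
  if H : h a a = 0 ∧ c + θ c = 0 then ⟨tU hB H.1 c, tU_mem_SUG hB H.1 H.2⟩ else 1

theorem tv_coe {a : V} (ha : h a a = 0) {c : K} (hc : c + θ c = 0) :
    (tv hB a c : V ≃ₗ[K] V) = tU hB ha c := by
  rw [tv, dif_pos ⟨ha, hc⟩]

theorem tv_apply {a : V} (ha : h a a = 0) {c : K} (hc : c + θ c = 0) (x : V) :
    (tv hB a c : V ≃ₗ[K] V) x = x + (c * h x a) • a := by
  rw [tv_coe hB ha hc, tU_apply]

theorem ng {c : K} (hc : c + θ c = 0) : -c + θ (-c) = 0 := by
  rw [map_neg]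
  linear_combination -hc

theorem tv_conj (k : SUG h) {a : V} (ha : h a a = 0) {c : K} (hc : c + θ c = 0) :
    k * tv hB a c * k⁻¹ = tv hB ((k : V ≃ₗ[K] V) a) c := by
  apply Subtype.ext
  rw [Subgroup.coe_mul, Subgroup.coe_mul, Subgroup.coe_inv, tv_coe hB ha hc,
    tU_conj hB k.2.1 ha, tv_coe hB (UG_iso hB k.2.1 ha) hc]

theorem tv_add {a : V} (ha : h a a = 0) {c d : K} (hc : c + θ c = 0) (hd : d + θ d = 0) :
    tv hB a c * tv hB a d = tv hB a (c + d) := by
  apply Subtype.ext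
  rw [Subgroup.coe_mul, tv_coe hB ha hc, tv_coe hB ha hd, tU_add,
    tv_coe hB ha (by rw [map_add]; linear_combination hc + hd)]

theorem tv_zero {a : V} (ha : h a a = 0) : tv hB a 0 = 1 := by
  apply Subtype.ext
  rw [tv_coe hB ha (by rw [map_zero, add_zero]), tU_zero]
  rfl

theorem tv_inv {a : V} (ha : h a a = 0) {c : K} (hc : c + θ c = 0) :
    (tv hB a c)⁻¹ = tv hB a (-c) := by
  symm
  apply eq_inv_of_mul_eq_one_left
  rw [tv_add hB ha (ng hc) hc, neg_add_cancel, tv_zero hB ha]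

theorem nm_tr (hθ : Iv θ) {c : K} (hc : c + θ c = 0) (l : K) :
    l * θ l * c + θ (l * θ l * c) = 0 := by
  rw [map_mul, map_mul, hθ.inv]
  linear_combination (l * θ l) * hc

theorem tv_smul (hθ : Iv θ) {a : V} (ha : h a a = 0) {c : K} (hc : c + θ c = 0) (l : K) :
    tv hB (l • a) c = tv hB a (l * θ l * c) := by
  apply Subtype.ext
  rw [tv_coe hB (smul_iso hB ha l) hc, tv_coe hB ha (nm_tr hθ hc l), tU_smul]

theorem tv_vec {c : K} (hc : c + θ c = 0) : tv hB (0 : V) c = 1 := by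
  apply Subtype.ext
  apply LinearEquiv.ext
  intro x
  rw [tv_apply hB (hB.zl 0) hc, smul_zero, add_zero]
  rfl

end B

section C

variable {K V : Type*} [Field K] [Finite K] [AddCommGroup V] [Module K V] [Module.Finite K V]
  {θ : K ≃+* K} (hθ : Iv θ) {h : V → V → K} (hB : Hm θ h)

include hθ hB

/-- a vector of norm one orthogonal to a hyperbolic pair -/
theorem exists_perp (hd : 3 ≤ finrank K V) {o o' : V} (ho : h o o = 0) (ho' : h o' o' = 0)
    (h1 : h o o' = 1) : ∃ w, h o w = 0 ∧ h o' w = 0 ∧ h w w = 1 := by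
  have h3 := (splitE hB ho ho' h1).finrank_eq
  rw [Module.finrank_prod, Module.finrank_prod, Module.finrank_self] at h3
  obtain ⟨w, hw⟩ := exists_norm_one hθ (rs_hm hB (WW_nd hB ho ho' h1)) (by omega)
  exact ⟨w, hB.swap w.2.1, hB.swap w.2.2, hw⟩

/-- transitivity on the isotropic vectors -/
theorem iso_trans (hd : 3 ≤ finrank K V) {v a : V} (hv0 : v ≠ 0) (ha0 : a ≠ 0)
    (hv : h v v = 0) (ha : h a a = 0) : ∃ k : SUG h, (k : V ≃ₗ[K] V) v = a := by
  obtain ⟨t, ht, l, hl0, htv⟩ := line_trans hθ hB hv0 ha0 hv ha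
  obtain ⟨o', ho', h1⟩ := exists_pair hθ hB ha0 ha
  obtain ⟨w, hw1, hw2, hw⟩ := exists_perp hθ hB hd ha ho' h1
  obtain ⟨t', ht', htv'⟩ := trans_scalar hθ hB ha ho' h1 hw1 hw2
    (by rw [hw]; exact one_ne_zero) (inv_ne_zero hl0)
  refine ⟨⟨t' * t, Subgroup.mul_mem _ (TG_le hB ht') (TG_le hB ht)⟩, ?_⟩
  change t' (t v) = a
  rw [htv, map_smul, htv', smul_smul, mul_inv_cancel₀ hl0, one_smul]

/-- the radical is transitive on the opposite vectors -/
theorem rad_trans {v w y : V} (hv : h v v = 0) (hw : h w w = 0) (hy : h y y = 0)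
    (hne : h v w ≠ 0) (he : h v y = h v w) :
    ∃ k : SUG h, (k : V ≃ₗ[K] V) v = v ∧ (k : V ≃ₗ[K] V) w = y := by
  haveI hp : Fact (ringChar K).Prime := ⟨CharP.char_is_prime K (ringChar K)⟩
  obtain ⟨μ, hμ⟩ : ∃ μ, μ = (θ (h v w))⁻¹ := ⟨_, rfl⟩
  have hθne : θ (h v w) ≠ 0 := (map_ne_zero θ).mpr hne
  have hμ0 : μ ≠ 0 := by rw [hμ]; exact inv_ne_zero hθne
  have hμ1 : θ μ * h v w = 1 := by
    rw [hμ, map_inv₀, hθ.inv, inv_mul_cancel₀ hne]
  have ho' : h (μ • w) (μ • w) = 0 := smul_iso hB hw μ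
  have h1 : h v (μ • w) = 1 := by rw [hB.smr, hμ1]
  have h1' : h v (μ • y) = 1 := by rw [hB.smr, he, hμ1]
  have h2' : h (μ • y) v = 1 := by rw [hB.herm v, h1', map_one]
  have hyy : h (μ • y) (μ • y) = 0 := smul_iso hB hy μ
  have hW := rs_hm hB (WW_nd hB hv ho' h1)
  have hS := splitE_iso hB hv ho' h1
  obtain ⟨E, hE⟩ : ∃ E, E = splitE hB hv ho' h1 := ⟨_, rfl⟩
  rw [← hE] at hS
  obtain ⟨z, hz⟩ : ∃ z, z = E.symm (μ • y) := ⟨_, rfl⟩
  have hEz : E z = μ • y := by rw [hz, E.apply_symm_apply]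
  have hEo : E (oo K (WW hB v (μ • w))) = v := by
    rw [hE, splitE_apply]
    change (1 : K) • v + (0 : V) + (0 : K) • _ = v
    module
  have hEo' : E (0, 0, 1) = μ • w := by
    rw [hE, splitE_apply]
    change (0 : K) • v + (0 : V) + (1 : K) • _ = _
    module
  have hz3 : z.2.2 = 1 := by
    have e1 : hyp θ (rs h (WW hB v (μ • w))) (oo K _) z = 1 := by
      rw [← hS, hEo, hEz, h1']
    rw [hyp_oo hW] at e1
    have e2 := congrArg θ e1
    rwa [hθ.inv, map_one] at e2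
  have hzz : z.1 + θ z.1 + rs h _ z.2.1 z.2.1 = 0 := by
    have e1 : hyp θ (rs h (WW hB v (μ • w))) z z = 0 := by rw [← hS, hEz, hyy]
    rw [hyp_apply, hz3, map_one, mul_one, one_mul] at e1
    exact e1
  have hmem : qq hW z.2.1 z.1 ∈ SUG (hyp θ (rs h (WW hB v (μ • w)))) :=
    ⟨qq_mem hW hzz, det_pel (p := ringChar K) (qq_pel hW _ _)⟩
  refine ⟨⟨cj E (qq hW z.2.1 z.1), (cj_mem_SUG hS).mpr hmem⟩, ?_, ?_⟩
  · change cj E (qq hW z.2.1 z.1) v = v
    have e1 : E.symm v = oo K _ := E.symm_apply_eq.mpr hEo.symm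
    rw [cj_apply, e1, qq_oo, hEo]
  · change cj E (qq hW z.2.1 z.1) w = y
    have e1 : cj E (qq hW z.2.1 z.1) (μ • w) = μ • y := by
      have e2 : E.symm (μ • w) = (0, 0, 1) := E.symm_apply_eq.mpr hEo'.symm
      rw [cj_apply, e2, ← hEz, qq_apply]
      congr 1
      refine Prod.ext ?_ (Prod.ext ?_ ?_)
      · change (0 : K) - rs h _ 0 z.2.1 + z.1 * 1 = z.1
        rw [hW.zl]
        ring
      · change (0 : WW hB v (μ • w)) + (1 : K) • z.2.1 = z.2.1
        rw [one_smul, zero_add]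
      · exact hz3.symm
    rw [map_smul] at e1
    exact smul_right_injective V hμ0 e1

variable (hd : 3 ≤ finrank K V)

include hd

/-- transitivity on the hyperbolic pairs of given value -/
theorem pair_trans {v w a b : V} (hv : h v v = 0) (hw : h w w = 0) (ha : h a a = 0)
    (hb : h b b = 0) (hne : h v w ≠ 0) (he : h a b = h v w) :
    ∃ k : SUG h, (k : V ≃ₗ[K] V) v = a ∧ (k : V ≃ₗ[K] V) w = b := by
  have hv0 : v ≠ 0 := by rintro rfl; exact hne (hB.zl _)
  have ha0 : a ≠ 0 := by rintro rfl; rw [hB.zl] at he; exact hne he.symm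
  obtain ⟨k, hk⟩ := iso_trans hθ hB hd hv0 ha0 hv ha
  have e1 : h a ((k : V ≃ₗ[K] V) w) = h v w := by rw [← hk, mem_UG.mp k.2.1]
  obtain ⟨s, hs1, hs2⟩ := rad_trans hθ hB ha (UG_iso hB k.2.1 hw) hb (by rw [e1]; exact hne)
    (by rw [e1, he])
  refine ⟨s * k, ?_, ?_⟩
  · change (s : V ≃ₗ[K] V) ((k : V ≃ₗ[K] V) v) = a
    rw [hk, hs1]
  · change (s : V ≃ₗ[K] V) ((k : V ≃ₗ[K] V) w) = b
    rw [hs2]

/-- a common partner -/
theorem exists_common {a e : V} (ha : h a a = 0) (he : h e e = 0) (hne : h a e ≠ 0) (d : K) :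
    ∃ b, h b b = 0 ∧ h a b = d ∧ h e b = d := by
  obtain ⟨μ, hμ⟩ : ∃ μ, μ = (θ (h a e))⁻¹ := ⟨_, rfl⟩
  have hθne : θ (h a e) ≠ 0 := (map_ne_zero θ).mpr hne
  have hμ0 : μ ≠ 0 := by rw [hμ]; exact inv_ne_zero hθne
  have hμ1 : θ μ * h a e = 1 := by
    rw [hμ, map_inv₀, hθ.inv, inv_mul_cancel₀ hne]
  obtain ⟨o, ho⟩ : ∃ o, o = μ • e := ⟨_, rfl⟩
  have hoo : h o o = 0 := by rw [ho]; exact smul_iso hB he μ
  have h1 : h a o = 1 := by rw [ho, hB.smr, hμ1]
  have h2 : h o a = 1 := by rw [hB.herm a, h1, map_one]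
  obtain ⟨w, hw1, hw2, hw⟩ := exists_perp hθ hB hd ha hoo h1
  have hw1' := hB.swap hw1
  have hw2' := hB.swap hw2
  obtain ⟨α, hα⟩ : ∃ α, α = θ (μ * d) := ⟨_, rfl⟩
  have hα' : θ α = μ * d := by rw [hα, hθ.inv]
  obtain ⟨x, hx⟩ := exists_nm hθ (a := -(α * d + θ (α * d))) (by rw [map_neg, tr_fix hθ])
  rw [map_mul] at hx
  refine ⟨α • a + θ d • o + x • w, ?_, ?_, ?_⟩
  · simp only [hB.addl, hB.addr, hB.sml, hB.smr, ha, hoo, h1, h2, hw1, hw2, hw1', hw2', hw,
      hθ.inv]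
    linear_combination hx
  · simp only [hB.addl, hB.addr, hB.sml, hB.smr, ha, hoo, h1, h2, hw1, hw2, hw1', hw2', hw,
      hθ.inv]
    ring
  · have e1 : h o (α • a + θ d • o + x • w) = μ * d := by
      simp only [hB.addl, hB.addr, hB.sml, hB.smr, ha, hoo, h1, h2, hw1, hw2, hw1', hw2', hw,
        hθ.inv, hα']
      ring
    have e2 : h o (α • a + θ d • o + x • w) = μ * h e (α • a + θ d • o + x • w) := by
      nth_rewrite 1 [ho]
      rw [hB.sml]
    rw [e1] at e2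
    exact (mul_left_cancel₀ hμ0 e2).symm

/-- **Pairs of opposite transvections.** -/
theorem pr_pair {g : SUG h} (hg : ¬ ∃ l : K, ∀ x, (g : V ≃ₗ[K] V) x = l • x) {a e : V}
    (ha : h a a = 0) (he : h e e = 0) (hne : h a e ≠ 0) {c : K} (hc : c + θ c = 0) :
    Pr 4 g (tv hB a c * tv hB e (-c)) := by
  obtain ⟨v, hv, hvg⟩ := exists_opp hθ hB (exists_iso_vec hθ hB (by omega)) hg
  have hgv : h ((g : V ≃ₗ[K] V) v) ((g : V ≃ₗ[K] V) v) = 0 := UG_iso hB g.2.1 hv
  -- the commutator with a transvection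
  have h1 : Pr 2 g (tv hB ((g : V ≃ₗ[K] V) v) c * tv hB v (-c)) := by
    have e1 := (Pr.self g).comm (tv hB v c)
    have e2 : g * (tv hB v c * g⁻¹ * (tv hB v c)⁻¹) = (g * tv hB v c * g⁻¹) * (tv hB v c)⁻¹ := by
      group
    rw [e2, tv_conj hB g hv hc, tv_inv hB hv hc] at e1
    exact e1
  have h2 : ∀ a b : V, h a a = 0 → h b b = 0 → h a b = h v ((g : V ≃ₗ[K] V) v) →
      Pr 2 g (tv hB b c * tv hB a (-c)) := by
    intro a b ha hb hab
    obtain ⟨k, hk1, hk2⟩ := pair_trans hθ hB hd hv hgv ha hb hvg hab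
    have e1 := h1.conj k
    have e2 : k * (tv hB ((g : V ≃ₗ[K] V) v) c * tv hB v (-c)) * k⁻¹ =
        (k * tv hB ((g : V ≃ₗ[K] V) v) c * k⁻¹) * (k * tv hB v (-c) * k⁻¹) := by group
    rw [e2, tv_conj hB k hgv hc, tv_conj hB k hv (ng hc), hk1, hk2] at e1
    exact e1
  obtain ⟨b, hb, hab, heb⟩ := exists_common hθ hB hd ha he hne (h v ((g : V ≃ₗ[K] V) v))
  have e1 := (h2 a b ha hb hab).inv.mul (h2 e b he hb heb)
  have e2 : (tv hB b c * tv hB a (-c))⁻¹ * (tv hB b c * tv hB e (-c)) =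
      (tv hB a (-c))⁻¹ * tv hB e (-c) := by group
  rw [e2, tv_inv hB ha (ng hc), neg_neg] at e1
  exact e1

/-- **Transvections are products of at most eight conjugates.** -/
theorem pr_tv (hF : 2 < Nat.card (FF θ)) {g : SUG h}
    (hg : ¬ ∃ l : K, ∀ x, (g : V ≃ₗ[K] V) x = l • x) {a : V} (ha : h a a = 0) {c : K}
    (hc : c + θ c = 0) : Pr 8 g (tv hB a c) := by
  by_cases ha0 : a = 0
  · rw [ha0, tv_vec hB hc]
    exact Pr.one _ _
  obtain ⟨e, he, hae⟩ := exists_pair hθ hB ha0 ha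
  have hea : h e a = 1 := by rw [hB.herm a, hae, map_one]
  obtain ⟨μ, hμ, hμ1⟩ := exists_fix_ne hθ hF
  obtain ⟨l, hl0, hl⟩ := exists_nm_ne hθ hμ μ.ne_zero
  obtain ⟨c', hc'⟩ : ∃ c', c' = c / (1 - μ) := ⟨_, rfl⟩
  have hμ1' : (1 : K) - μ ≠ 0 := sub_ne_zero.mpr (Ne.symm hμ1)
  have hc0 : c' + θ c' = 0 := by
    rw [hc', map_div₀, map_sub, map_one, hμ, ← add_div, hc, zero_div]
  have h1 := pr_pair hθ hB hd hg ha he (by rw [hae]; exact one_ne_zero) hc0
  have h2 := pr_pair hθ hB hd hg he (smul_iso hB ha l)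
    (by rw [hB.smr, hea, mul_one]; exact (map_ne_zero θ).mpr hl0) hc0
  have h3 := h1.mul h2
  have e1 : tv hB a c' * tv hB e (-c') * (tv hB e c' * tv hB (l • a) (-c')) =
      tv hB a c' * (tv hB e (-c') * tv hB e c') * tv hB (l • a) (-c') := by group
  rw [e1, tv_add hB he (ng hc0) hc0, neg_add_cancel, tv_zero hB he, mul_one,
    tv_smul hB hθ ha (ng hc0), tv_add hB ha hc0 (nm_tr hθ (ng hc0) l), hl] at h3
  have e2 : c' + (μ : K) * -c' = c := by
    rw [hc']
    field_simp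
    ring
  rw [e2] at h3
  exact h3

end C

end Vale.Agent.P318.R2.H969
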