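import Vale.Agent.P318.R2.H969.Un1

/-!
# Special unitary groups: products of few conjugates, second part

The elements of the unipotent radical of the stabiliser of an isotropic line are products of a
bounded number of transvections, and two such radicals generate.
-/

set_option linter.all false

namespace Vale.Agent.P318.R2.H969

open Subgroup Module
open Vale.Agent.P180.R2.H589.Un
open Vale.Agent.P180.R2.H589.Sp (oo oo_ne cj cj_apply cj_symm_apply)
open Vale.Agent.P318.R2.H402 (Two Pr Pr.one Pr.mono Pr.map Pr.conj Pr.isConj Pr.mul Pr.self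
  Pr.inv_self Pr.inv Pr.comm)

section Mv

variable {K V : Type*} [Field K] [AddCommGroup V] [Module K V] {θ : K ≃+* K} (hθ : Iv θ)
  {h : V → V → K} (hB : Hm θ h)

/-- a transvection which moves an isotropic vector -/
theorem pr_move {g : SUG h} {m : ℕ}
    (H : ∀ (a : V) (c : K), h a a = 0 → c + θ c = 0 → Pr m g (tv hB a c)) {v w : V}
    (hv : h v v = 0) (hw : h w w = 0) {d : K} (hd : d ≠ 0) (hd' : θ d = -d) (hvw : h v w = d) :
    ∃ t : SUG h, Pr m g t ∧ (t : V ≃ₗ[K] V) v = w ∧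
      ∀ x, h x v = 0 → h x w = 0 → (t : V ≃ₗ[K] V) x = x := by
  have ha : h (w - v) (w - v) = 0 := by
    rw [hB.subl, hB.subr, hB.subr, hv, hw, hB.herm v w, hvw, hd']
    ring
  have hc : d⁻¹ + θ d⁻¹ = 0 := by rw [map_inv₀, hd', inv_neg, add_neg_cancel]
  refine ⟨tv hB (w - v) d⁻¹, H _ _ ha hc, ?_, fun x h1 h2 => ?_⟩
  · rw [tv_apply hB ha hc, hB.subr, hv, sub_zero, hvw, inv_mul_cancel₀ hd, one_smul,
      add_sub_cancel]
  · rw [tv_apply hB ha hc, hB.subr x w v, h1, h2, sub_zero, mul_zero, zero_smul, add_zero]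

end Mv

section Md

variable {K W : Type*} [Field K] [AddCommGroup W] [Module K W] {θ : K ≃+* K}
  {h : W → W → K} (hB : Hm θ h)

include hB in
theorem o'_iso : hyp θ h (o' K W) (o' K W) = 0 := by
  rw [hyp_apply]
  change (0 : K) * θ 1 + 1 * θ 0 + h 0 0 = 0
  rw [hB.zl, map_zero]
  ring

include hB in
theorem oo_o' : hyp θ h (oo K W) (o' K W) = 1 := by
  rw [hyp_oo hB]
  exact map_one θ

theorem qq_SUG [Finite K] {y : W} {c : K} (hc : c + θ c + h y y = 0) :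
    qq hB y c ∈ SUG (hyp θ h) := by
  haveI hp : Fact (ringChar K).Prime := ⟨CharP.char_is_prime K (ringChar K)⟩
  exact ⟨qq_mem hB hc, det_pel (p := ringChar K) (qq_pel hB _ _)⟩

variable (hθ : Iv θ)

include hB hθ in
theorem lv_SUG {μ : Kˣ} (hμ : θ (μ : K) = μ) :
    lv θ (1 : W ≃ₗ[K] W) μ ∈ SUG (hyp θ h) :=
  TG_le (hyp_hm hθ hB) (lv_mem_TG_fix hθ hB hμ)

/-- Levi elements with a scalar of the fixed field are products of few transvections. -/
theorem pr_lv {g : SUG (hyp θ h)} {m : ℕ}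
    (H : ∀ (a : K × W × K) (c : K), hyp θ h a a = 0 → c + θ c = 0 →
      Pr m g (tv (hyp_hm hθ hB) a c)) {μ : Kˣ} (hμ : θ (μ : K) = μ) :
    Pr (m + m + m) g ⟨lv θ (1 : W ≃ₗ[K] W) μ, lv_SUG hB hθ hμ⟩ := by
  have hV := hyp_hm hθ hB
  have ho' := o'_iso hB (K := K)
  have hoo := oo_o' hB (K := K)
  have hoo' : hyp θ h (o' K W) (oo K W) = 1 := by rw [hV.herm (oo K W), hoo, map_one]
  obtain ⟨d, hd, hd'⟩ := exists_dl hθ
  obtain ⟨t, ht, htv, htx⟩ := pr_move hV H (oo_iso hB) (smul_iso hV ho' (-d)) hd hd' (by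
    rw [hV.smr, hoo, map_neg, hd', neg_neg, mul_one])
  obtain ⟨t', ht', htv', htx'⟩ := pr_move hV H (smul_iso hV ho' (-d)) (smul_iso hV (oo_iso hB) (μ : K))
    (d := -((μ : K) * d)) (neg_ne_zero.mpr (mul_ne_zero μ.ne_zero hd)) (by
      rw [map_neg, map_mul, hμ, hd']
      ring) (by
      rw [hV.sml, hV.smr, hoo', hμ]
      ring)
  obtain ⟨T, hT⟩ : ∃ T, T = t' * t := ⟨_, rfl⟩
  have hTP : Pr (m + m) g T := by rw [hT]; exact ht'.mul ht
  have hTv : (T : (K × W × K) ≃ₗ[K] (K × W × K)) (oo K W) = (μ : K) • oo K W := by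
    rw [hT]
    change (t' : (K × W × K) ≃ₗ[K] (K × W × K)) ((t : (K × W × K) ≃ₗ[K] (K × W × K)) (oo K W)) = _
    rw [htv, htv']
  have hTx : ∀ x, hyp θ h x (oo K W) = 0 → hyp θ h x (o' K W) = 0 →
      (T : (K × W × K) ≃ₗ[K] (K × W × K)) x = x := by
    intro x h1 h2
    have e1 : hyp θ h x (-d • o' K W) = 0 := by rw [hV.smr, h2, mul_zero]
    have e2 : hyp θ h x ((μ : K) • oo K W) = 0 := by rw [hV.smr, h1, mul_zero]
    rw [hT]
    change (t' : (K × W × K) ≃ₗ[K] (K × W × K)) ((t : (K × W × K) ≃ₗ[K] (K × W × K)) x) = x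
    rw [htx x h1 e1, htx' x e1 e2]
  have htS : (T : (K × W × K) ≃ₗ[K] (K × W × K)) ∈ StU θ h := ⟨T.2.1, μ, hTv⟩
  obtain ⟨y, c, hc, h1⟩ := exists_decomp hB hθ ⟨_, htS⟩
  have hlam : lam θ h ⟨_, htS⟩ = μ := by
    apply Units.ext
    rw [lam_val]
    change ((T : (K × W × K) ≃ₗ[K] (K × W × K)) (oo K W)).1 = μ
    rw [hTv]
    exact mul_one _
  have hfix : ∀ x : W, (T : (K × W × K) ≃ₗ[K] (K × W × K)) (0, x, 0) = (0, x, 0) := by
    intro x
    apply hTx
    · rw [hyp_apply]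
      change (0 : K) * θ 0 + 0 * θ 1 + h x 0 = 0
      rw [hB.zr]
      ring
    · rw [hyp_apply]
      change (0 : K) * θ 1 + 0 * θ 0 + h x 0 = 0
      rw [hB.zr]
      ring
  have hbl : bl hB ⟨_, htS⟩ = 1 := by
    apply Subtype.ext
    apply LinearEquiv.ext
    intro x
    rw [bl_apply]
    change ((T : (K × W × K) ≃ₗ[K] (K × W × K)) (0, x, 0)).2.1 = x
    rw [hfix]
  rw [hlam, hbl] at h1
  change (T : (K × W × K) ≃ₗ[K] (K × W × K)) = lv θ 1 μ * qq hB y c at h1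
  have hy : y = 0 := by
    apply hB.nd
    intro x
    have h2 := hfix x
    rw [h1, LinearEquiv.mul_apply, qq_apply, lv_apply] at h2
    have h3 := congrArg Prod.fst h2
    change (μ : K) * (0 - h x y + c * 0) = 0 at h3
    have h4 := (mul_eq_zero.mp h3).resolve_left μ.ne_zero
    apply hB.swap
    linear_combination -h4
  rw [hy, hB.zl, add_zero] at hc
  rw [hy, qq_tU hB hθ] at h1
  have h2 := hTP.mul (H (oo K W) (-c) (oo_iso hB) (ng hc))
  have h3 : T * tv hV (oo K W) (-c) = ⟨lv θ (1 : W ≃ₗ[K] W) μ, lv_SUG hB hθ hμ⟩ := by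
    apply Subtype.ext
    rw [Subgroup.coe_mul, tv_coe hV (oo_iso hB) (ng hc), h1, mul_assoc, tU_add, add_neg_cancel,
      tU_zero, mul_one]
  rw [h3] at h2
  exact h2

/-- The elements of the radical are products of few transvections. -/
theorem pr_qq [Finite K] (hF : 2 < Nat.card (FF θ)) {g : SUG (hyp θ h)} {m : ℕ}
    (H : ∀ (a : K × W × K) (c : K), hyp θ h a a = 0 → c + θ c = 0 →
      Pr m g (tv (hyp_hm hθ hB) a c)) {y : W} {c : K} (hc : c + θ c + h y y = 0) :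
    Pr (7 * m) g ⟨qq hB y c, qq_SUG hB hc⟩ := by
  have hV := hyp_hm hθ hB
  obtain ⟨μ, hμ, hμ1⟩ := exists_fix_ne hθ hF
  have hμ1' : (μ : K) - 1 ≠ 0 := sub_ne_zero.mpr hμ1
  obtain ⟨y', hy'⟩ : ∃ y', y' = ((μ : K) - 1)⁻¹ • y := ⟨_, rfl⟩
  obtain ⟨c', hc'⟩ := exists_cond hB hθ y'
  have h1 := pr_lv hB hθ H hμ
  have h2 := h1.comm ⟨qq hB y' c', qq_SUG hB hc'⟩
  obtain ⟨L, hL⟩ : ∃ L : SUG (hyp θ h), L = ⟨lv θ (1 : W ≃ₗ[K] W) μ, lv_SUG hB hθ hμ⟩ := ⟨_, rfl⟩
  obtain ⟨S, hS⟩ : ∃ S : SUG (hyp θ h), S = ⟨qq hB y' c', qq_SUG hB hc'⟩ := ⟨_, rfl⟩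
  rw [← hL, ← hS] at h2
  obtain ⟨e, he⟩ : ∃ e, e = (μ : K) * θ (μ : K) * c' + (-c' - h y' y') -
      h (-y') (θ (μ : K) • (1 : W ≃ₗ[K] W) y') := ⟨_, rfl⟩
  have h3 : ((L * (S * L⁻¹ * S⁻¹) : SUG (hyp θ h)) : (K × W × K) ≃ₗ[K] (K × W × K)) =
      qq hB y e := by
    have e1 : ((L * (S * L⁻¹ * S⁻¹) : SUG (hyp θ h)) : (K × W × K) ≃ₗ[K] (K × W × K)) =
        lv θ 1 μ * (qq hB y' c' * (lv θ 1 μ)⁻¹ * (qq hB y' c')⁻¹) := by rw [hL, hS]; rfl
    have e2 : lv θ 1 μ * (qq hB y' c' * (lv θ 1 μ)⁻¹ * (qq hB y' c')⁻¹) =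
        (lv θ 1 μ * qq hB y' c' * (lv θ 1 μ)⁻¹) * (qq hB y' c')⁻¹ := by group
    have h4 : θ (μ : K) • (1 : W ≃ₗ[K] W) y' + -y' = y := by
      change θ (μ : K) • y' + -y' = y
      rw [hμ]
      have h5 : (μ : K) • y' + -y' = ((μ : K) - 1) • y' := by module
      rw [h5, hy', smul_smul, mul_inv_cancel₀ hμ1', one_smul]
    rw [e1, e2, lv_qq hB (Subgroup.one_mem _) hθ, qq_inv, qq_mul, h4, ← he]
  have h5 := cond_of_mem hB (y := y) (c := e) (by rw [← h3]; exact (L * (S * L⁻¹ * S⁻¹)).2.1)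
  have h6 : (c - e) + θ (c - e) = 0 := by
    rw [map_sub]
    linear_combination hc - h5
  have h7 := h2.mul (H (oo K W) (c - e) (oo_iso hB) h6)
  have h8 : L * (S * L⁻¹ * S⁻¹) * tv hV (oo K W) (c - e) = ⟨qq hB y c, qq_SUG hB hc⟩ := by
    apply Subtype.ext
    rw [Subgroup.coe_mul, h3, tv_coe hV (oo_iso hB) h6, ← qq_tU hB hθ, qq_mul, hB.zl, add_zero,
      sub_zero, add_sub_cancel]
  rw [h8] at h7
  exact h7.mono (by omega)

/-- the radical as a subgroup of the special unitary group -/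
def rad (hB : Hm θ h) : Subgroup (SUG (hyp θ h)) where
  carrier := {s | ∃ y c, (s : (K × W × K) ≃ₗ[K] (K × W × K)) = qq hB y c}
  one_mem' := ⟨0, 0, by rw [qq_zero]; rfl⟩
  mul_mem' := by
    rintro s s' ⟨y, c, hs⟩ ⟨y', c', hs'⟩
    exact ⟨_, _, by rw [Subgroup.coe_mul, hs, hs', qq_mul]⟩
  inv_mem' := by
    rintro s ⟨y, c, hs⟩
    exact ⟨_, _, by rw [Subgroup.coe_inv, hs, qq_inv]⟩

theorem pr_rad [Finite K] (hF : 2 < Nat.card (FF θ)) {g : SUG (hyp θ h)} {m : ℕ}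
    (H : ∀ (a : K × W × K) (c : K), hyp θ h a a = 0 → c + θ c = 0 →
      Pr m g (tv (hyp_hm hθ hB) a c)) {s : SUG (hyp θ h)} (hs : s ∈ rad hB) :
    Pr (7 * m) g s := by
  obtain ⟨y, c, hs⟩ := hs
  have hc : c + θ c + h y y = 0 := cond_of_mem hB (by rw [← hs]; exact s.2.1)
  have h1 := pr_qq hB hθ hF H hc
  have h2 : s = ⟨qq hB y c, qq_SUG hB hc⟩ := Subtype.ext hs
  rw [h2]
  exact h1

include hθ in
/-- the radical is transitive on the isotropic lines opposite to `oo` -/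
theorem rad_o' [Finite K] {a : K × W × K} (ha : hyp θ h a a = 0) (h3 : a.2.2 ≠ 0) :
    ∃ s ∈ rad hB, a = a.2.2 • (s : (K × W × K) ≃ₗ[K] (K × W × K)) (o' K W) := by
  have hV := hyp_hm hθ hB
  obtain ⟨b, hb⟩ : ∃ b, b = a.2.2⁻¹ • a := ⟨_, rfl⟩
  have hbb : hyp θ h b b = 0 := by rw [hb]; exact smul_iso hV ha _
  have hb3 : b.2.2 = 1 := by
    rw [hb]
    change a.2.2⁻¹ * a.2.2 = 1
    exact inv_mul_cancel₀ h3
  have hc : b.1 + θ b.1 + h b.2.1 b.2.1 = 0 := by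
    rw [hyp_apply, hb3, map_one, mul_one, one_mul] at hbb
    exact hbb
  refine ⟨⟨qq hB b.2.1 b.1, qq_SUG hB hc⟩, ⟨_, _, rfl⟩, ?_⟩
  change a = a.2.2 • qq hB b.2.1 b.1 (o' K W)
  have e1 : qq hB b.2.1 b.1 (o' K W) = b := by
    rw [qq_apply]
    refine Prod.ext ?_ (Prod.ext ?_ ?_)
    · change (0 : K) - h 0 b.2.1 + b.1 * 1 = b.1
      rw [hB.zl]
      ring
    · change (0 : W) + (1 : K) • b.2.1 = b.2.1
      rw [one_smul, zero_add]
    · exact hb3.symm
  rw [e1, hb, smul_smul, mul_inv_cancel₀ h3, one_smul]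

include hθ in
/-- Two radicals contain the transvections. -/
theorem tv_mem_sup [Finite K] {r : SUG (hyp θ h)}
    (hr : (r : (K × W × K) ≃ₗ[K] (K × W × K)) (oo K W) = o' K W) (a : K × W × K) {c : K}
    (ha : hyp θ h a a = 0) (hc : c + θ c = 0) :
    tv (hyp_hm hθ hB) a c ∈ rad hB ⊔ (rad hB).map (MulAut.conj r).toMonoidHom := by
  have hV := hyp_hm hθ hB
  obtain ⟨H, hH⟩ : ∃ H, H = rad hB ⊔ (rad hB).map (MulAut.conj r).toMonoidHom := ⟨_, rfl⟩
  rw [← hH]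
  have hA : ∀ s ∈ rad hB, s ∈ H := fun s hs => by rw [hH]; exact mem_sup_left hs
  have hA' : ∀ s ∈ rad hB, r * s * r⁻¹ ∈ H := fun s hs => by
    rw [hH]; exact mem_sup_right ⟨s, hs, rfl⟩
  -- the centre `oo`
  have h1 : ∀ c : K, c + θ c = 0 → tv hV (oo K W) c ∈ rad hB := by
    intro c hc
    exact ⟨0, c, by rw [tv_coe hV (oo_iso hB) hc, qq_tU hB hθ]⟩
  -- opposite centres
  have h2 : ∀ (a : K × W × K) (c : K), hyp θ h a a = 0 → c + θ c = 0 → a.2.2 ≠ 0 →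
      tv hV a c ∈ H := by
    intro a c ha hc h3
    obtain ⟨s, hs, has⟩ := rad_o' hB hθ ha h3
    have e1 : tv hV a c = s * (r * tv hV (oo K W) (a.2.2 * θ a.2.2 * c) * r⁻¹) * s⁻¹ := by
      rw [tv_conj hV r (oo_iso hB) (nm_tr hθ hc _), hr, tv_conj hV s (o'_iso hB) (nm_tr hθ hc _)]
      nth_rewrite 1 [has]
      rw [tv_smul hV hθ (UG_iso hV s.2.1 (o'_iso hB)) hc]
    rw [e1]
    exact H.mul_mem (H.mul_mem (hA s hs) (hA' _ (h1 _ (nm_tr hθ hc _)))) (H.inv_mem (hA s hs))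
  by_cases h3 : a.2.2 = 0
  · by_cases ha0 : a = 0
    · rw [ha0, tv_vec hV hc]
      exact H.one_mem
    -- a common opposite vector
    obtain ⟨b, hb, hb3, hab⟩ : ∃ b, hyp θ h b b = 0 ∧ b.2.2 ≠ 0 ∧ hyp θ h a b ≠ 0 := by
      by_cases h4 : a.1 = 0
      · have h5 : a.2.1 ≠ 0 := by
          intro h6
          exact ha0 (Prod.ext h4 (Prod.ext h6 h3))
        obtain ⟨y, hy⟩ := hB.exists_one h5
        obtain ⟨e, he⟩ := exists_cond hB hθ y
        refine ⟨(e, y, 1), ?_, one_ne_zero, ?_⟩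
        · rw [hyp_apply]
          change e * θ 1 + 1 * θ e + h y y = 0
          rw [map_one, mul_one, one_mul, he]
        · rw [hyp_apply]
          change a.1 * θ 1 + a.2.2 * θ e + h a.2.1 y ≠ 0
          rw [h4, h3, hy, zero_mul, zero_mul, zero_add, zero_add]
          exact one_ne_zero
      · refine ⟨o' K W, o'_iso hB, one_ne_zero, ?_⟩
        rw [hyp_apply]
        change a.1 * θ 1 + a.2.2 * θ 0 + h a.2.1 0 ≠ 0
        rw [hB.zr, h3, map_one, mul_one, zero_mul, add_zero, add_zero]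
        exact h4
    obtain ⟨d, hd, hd'⟩ := exists_dl hθ
    have hd0 : d + θ d = 0 := by rw [hd', add_neg_cancel]
    obtain ⟨k, hk⟩ : ∃ k, k = tv hV b d := ⟨_, rfl⟩
    have hkH : k ∈ H := by rw [hk]; exact h2 b d hb hd0 hb3
    have e1 : ((k : (K × W × K) ≃ₗ[K] (K × W × K)) a).2.2 ≠ 0 := by
      rw [hk, tv_apply hV hb hd0]
      change a.2.2 + d * hyp θ h a b * b.2.2 ≠ 0
      rw [h3, zero_add]
      exact mul_ne_zero (mul_ne_zero hd hab) hb3
    have e2 := h2 _ c (UG_iso hV k.2.1 ha) hc e1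
    rw [← tv_conj hV k ha hc] at e2
    have e3 : tv hV a c = k⁻¹ * (k * tv hV a c * k⁻¹) * k := by group
    rw [e3]
    exact H.mul_mem (H.mul_mem (H.inv_mem hkH) e2) hkH
  · exact h2 a c ha hc h3

end Md

section Fin

variable {K W : Type} [Field K] [Finite K] [AddCommGroup W] [Module K W] [Module.Finite K W]
  {θ : K ≃+* K} (hθ : Iv θ) {h : W → W → K} (hB : Hm θ h)

include hθ in
/-- Two radicals generate. -/
theorem sup_top (hF : 2 < Nat.card (FF θ)) {r : SUG (hyp θ h)}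
    (hr : (r : (K × W × K) ≃ₗ[K] (K × W × K)) (oo K W) = o' K W) :
    rad hB ⊔ (rad hB).map (MulAut.conj r).toMonoidHom = ⊤ := by
  have hV := hyp_hm hθ hB
  rw [eq_top_iff]
  intro s _
  obtain ⟨H, hH⟩ : ∃ H, H = rad hB ⊔ (rad hB).map (MulAut.conj r).toMonoidHom := ⟨_, rfl⟩
  rw [← hH]
  have h1 : TG hV ≤ H.map (SUG (hyp θ h)).subtype := by
    rw [TG, closure_le]
    rintro _ ⟨a, ha, c, hc, rfl⟩
    refine ⟨tv hV a c, ?_, tv_coe hV ha hc⟩
    rw [hH]
    exact tv_mem_sup hB hθ hr a ha hc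
  have h2 : (s : (K × W × K) ≃ₗ[K] (K × W × K)) ∈ TG hV := by
    rw [← SUG_eq_TG hθ hF hV]
    exact s.2
  obtain ⟨s', hs', he⟩ := h1 h2
  have h3 : s' = s := Subtype.ext he
  rw [← h3]
  exact hs'

include hθ hB in
/-- **Two subgroups which generate and whose elements are products of few conjugates.** -/
theorem two_hyp (hF : 2 < Nat.card (FF θ)) (hW : 1 ≤ finrank K W) :
    ∃ A B : Subgroup (SUG (hyp θ h)), A ⊔ B = ⊤ ∧ ∀ g : SUG (hyp θ h),
      (¬ ∃ l : K, ∀ x, (g : (K × W × K) ≃ₗ[K] (K × W × K)) x = l • x) →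
      ∀ y, (y ∈ A ∨ y ∈ B) → Pr 56 g y := by
  have hV := hyp_hm hθ hB
  have hd : 3 ≤ finrank K (K × W × K) := by
    rw [Module.finrank_prod, Module.finrank_prod, Module.finrank_self]
    omega
  have ho'0 : o' K W ≠ 0 := by
    intro h0
    exact one_ne_zero (congrArg (fun u : K × W × K => u.2.2) h0)
  obtain ⟨r, hr⟩ := iso_trans hθ hV hd (oo_ne (K := K) (W := W)) ho'0 (oo_iso hB) (o'_iso hB)
  refine ⟨_, _, sup_top hθ hB hF hr, ?_⟩
  intro g hg y hy
  have H : ∀ (a : K × W × K) (c : K), hyp θ h a a = 0 → c + θ c = 0 → Pr 8 g (tv hV a c) :=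
    fun a c ha hc => pr_tv hθ hV hd hF hg ha hc
  rcases hy with hy | ⟨s, hs, rfl⟩
  · exact pr_rad hB hθ hF H hy
  · exact (pr_rad hB hθ hF H hs).conj r

end Fin

/-- **Special unitary groups, modulo their centres.** Let `h` be a nondegenerate hermitian form on
a vector space of dimension at least three over a finite field `K` with an involution `θ` whose
fixed field has at least three elements. Then the quotient of the special unitary group of `h` by
its centre is generated by two subgroups all of whose elements are products of at most 56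
conjugates of `x` and `x⁻¹`, for every `x ≠ 1`. -/
theorem two_PSU {K V : Type} [Field K] [Finite K] [AddCommGroup V] [Module K V]
    [Module.Finite K V] {θ : K ≃+* K} (hθ : Iv θ) (hF : 2 < Nat.card (FF θ)) {h : V → V → K}
    (hB : Hm θ h) (hd : 3 ≤ finrank K V) : Two (SUG h ⧸ center (SUG h)) 56 := by
  obtain ⟨o, ho0, ho⟩ := exists_iso_vec hθ hB (by omega)
  obtain ⟨o', ho', h1⟩ := exists_pair hθ hB ho0 ho
  have h3 := (splitE hB ho ho' h1).finrank_eq
  rw [Module.finrank_prod, Module.finrank_prod, Module.finrank_self] at h3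
  have hW := rs_hm hB (WW_nd hB ho ho' h1)
  have hS := splitE_iso hB ho ho' h1
  obtain ⟨E, hE⟩ : ∃ E, E = splitE hB ho ho' h1 := ⟨_, rfl⟩
  rw [← hE] at hS
  obtain ⟨A, B, hAB, hP⟩ := two_hyp hθ hW hF (by omega)
  let Φ : SUG (hyp θ (rs h (WW hB o o'))) →* SUG h :=
    { toFun := fun g => ⟨cj E g, (cj_mem_SUG hS).mpr g.2⟩
      map_one' := Subtype.ext (map_one (cj E))
      map_mul' := fun g k => Subtype.ext (map_mul (cj E) _ _) }
  have hΦ : Function.Surjective Φ := by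
    intro k
    refine ⟨⟨(cj E).symm k, ?_⟩, Subtype.ext ((cj E).apply_symm_apply _)⟩
    rw [← cj_mem_SUG hS, MulEquiv.apply_symm_apply]
    exact k.2
  let F : SUG (hyp θ (rs h (WW hB o o'))) →* SUG h ⧸ center (SUG h) :=
    (QuotientGroup.mk' _).comp Φ
  have hFs : Function.Surjective F := (QuotientGroup.mk'_surjective _).comp hΦ
  refine ⟨A.map F, B.map F, ?_, ?_⟩
  · rw [← Subgroup.map_sup, hAB, ← MonoidHom.range_eq_map, MonoidHom.range_eq_top]
    exact hFs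
  · intro x hx y hy
    obtain ⟨g, rfl⟩ := hFs x
    have hg : ¬ ∃ l : K, ∀ x, (g : (K × WW hB o o' × K) ≃ₗ[K] (K × WW hB o o' × K)) x = l • x := by
      rintro ⟨l, hl⟩
      apply hx
      change QuotientGroup.mk' _ (Φ g) = 1
      rw [QuotientGroup.mk'_apply, QuotientGroup.eq_one_iff, mem_center_iff]
      intro k
      apply Subtype.ext
      apply LinearEquiv.ext
      intro v
      have e1 : ∀ v, ((Φ g : SUG h) : V ≃ₗ[K] V) v = l • v := by
        intro v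
        change cj E g v = l • v
        rw [cj_apply, hl, map_smul, E.apply_symm_apply]
      change (k : V ≃ₗ[K] V) (((Φ g : SUG h) : V ≃ₗ[K] V) v) =
        ((Φ g : SUG h) : V ≃ₗ[K] V) ((k : V ≃ₗ[K] V) v)
      rw [e1, e1, map_smul]
    rcases hy with ⟨s, hs, rfl⟩ | ⟨s, hs, rfl⟩
    · exact (hP g hg s (Or.inl hs)).map F
    · exact (hP g hg s (Or.inr hs)).map F

end Vale.Agent.P318.R2.H969
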