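import Vale.Agent.P318.R2.H969.Un2

/-!
# Special unitary groups: products of few conjugates, third part

Dimension at least four, all finite fields.
-/

set_option linter.all false

namespace Vale.Agent.P318.R2.H969

open Subgroup Module
open Vale.Agent.P180.R2.H589.Un
open Vale.Agent.P180.R2.H589.Sp (oo oo_ne cj cj_apply cj_symm_apply exists_avoid')
open Vale.Agent.P318.R2.H402 (Two Pr Pr.one Pr.mono Pr.map Pr.conj Pr.isConj Pr.mul Pr.self
  Pr.inv_self Pr.inv Pr.comm)

section C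

variable {K V : Type*} [Field K] [Finite K] [AddCommGroup V] [Module K V] [Module.Finite K V]
  {θ : K ≃+* K} (hθ : Iv θ) {h : V → V → K} (hB : Hm θ h)

include hθ hB

omit [Module.Finite K V] in
/-- a common opposite vector -/
theorem exists_opp2 {v w : V} (hv0 : v ≠ 0) (hw0 : w ≠ 0) (hv : h v v = 0) (hvw : h v w = 0) :
    ∃ y, h y y = 0 ∧ h v y ≠ 0 ∧ h y w ≠ 0 := by
  obtain ⟨y', hy'⟩ := exists_avoid' (n := 2) (V := V) (K := K) (by
    have h1 := card_sq hθ
    have h2 : 1 < Nat.card (FF θ) := Finite.one_lt_card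
    nlinarith) ![hl hB v, hl hB w] (by
    intro i
    fin_cases i
    · exact hl_ne hB hv0
    · exact hl_ne hB hw0)
  have h1 : h y' v ≠ 0 := hy' 0
  have h2 : h y' w ≠ 0 := hy' 1
  have h1' := hB.swap_ne h1
  obtain ⟨s, hs⟩ := exists_tr hθ (a := - h y' y') (by rw [map_neg, hB.fix])
  obtain ⟨y, hy⟩ : ∃ y, y = y' + (s / h v y') • v := ⟨_, rfl⟩
  have hyy : h y y = 0 := by
    rw [hy, hB.addl, hB.addr, hB.addr, hB.sml, hB.sml, hB.smr, hB.smr, hv, hB.herm v y',
      map_div₀]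
    have h3 : θ (h v y') ≠ 0 := (map_ne_zero θ).mpr h1'
    have h4 : s / h v y' * h v y' = s := div_mul_cancel₀ _ h1'
    have h5 : θ s / θ (h v y') * θ (h v y') = θ s := div_mul_cancel₀ _ h3
    linear_combination hs + h4 + h5
  refine ⟨y, hyy, ?_, ?_⟩
  · rw [hy, hB.addr, hB.smr, hv, mul_zero, add_zero]
    exact h1'
  · rw [hy, hB.addl, hB.sml, hvw, mul_zero, add_zero]
    exact h2

/-- Pairs of orthogonal transvections. -/
theorem pr_orth (hd : 3 ≤ finrank K V) {g : SUG h}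
    (hg : ¬ ∃ l : K, ∀ x, (g : V ≃ₗ[K] V) x = l • x) {a b : V}
    (ha0 : a ≠ 0) (hb0 : b ≠ 0) (ha : h a a = 0) (hb : h b b = 0) (hab : h a b = 0) {c : K}
    (hc : c + θ c = 0) : Pr 8 g (tv hB a c * tv hB b (-c)) := by
  obtain ⟨e, he, hae, heb⟩ := exists_opp2 hθ hB ha0 hb0 ha hab
  have h1 := pr_pair hθ hB hd hg ha he hae hc
  have h2 := pr_pair hθ hB hd hg he hb heb hc
  have h3 := h1.mul h2
  have e1 : tv hB a c * tv hB e (-c) * (tv hB e c * tv hB b (-c)) =
      tv hB a c * (tv hB e (-c) * tv hB e c) * tv hB b (-c) := by group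
  rw [e1, tv_add hB he (ng hc) hc, neg_add_cancel, tv_zero hB he, mul_one] at h3
  exact h3

/-- **Transvections are products of at most sixteen conjugates**, dimension at least four. -/
theorem pr_tv4 (hd : 4 ≤ finrank K V) {g : SUG h}
    (hg : ¬ ∃ l : K, ∀ x, (g : V ≃ₗ[K] V) x = l • x) {b : V} (hb : h b b = 0) {c : K}
    (hc : c + θ c = 0) : Pr 16 g (tv hB b c) := by
  by_cases hb0 : b = 0
  · rw [hb0, tv_vec hB hc]
    exact Pr.one _ _
  obtain ⟨o', ho', h1⟩ := exists_pair hθ hB hb0 hb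
  have h3 := (splitE hB hb ho' h1).finrank_eq
  rw [Module.finrank_prod, Module.finrank_prod, Module.finrank_self] at h3
  obtain ⟨⟨a, ha1, ha2⟩, haW, haa⟩ := exists_iso_vec hθ (rs_hm hB (WW_nd hB hb ho' h1)) (by omega)
  have ha : h a a = 0 := haa
  have ha0 : a ≠ 0 := fun h0 => haW (Subtype.ext h0)
  have hba := hB.swap ha1
  have hne : ∀ l : K, a + l • b ≠ 0 := by
    intro l h0
    have e1 : h (a + l • b) o' = l := by rw [hB.addl, hB.sml, ha2, h1]; ring
    rw [h0, hB.zl] at e1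
    rw [← e1, zero_smul, add_zero] at h0
    exact ha0 h0
  have hiso : ∀ l m : K, h (a + l • b) (a + m • b) = 0 := by
    intro l m
    simp only [hB.addl, hB.addr, hB.sml, hB.smr, ha, hb, ha1, hba]
    ring
  have hisob : ∀ l : K, h (a + l • b) b = 0 := by
    intro l
    simp only [hB.addl, hB.sml, hb, ha1]
    ring
  obtain ⟨t, ht⟩ := exists_tr_one hθ
  have ht' : θ t = 1 - t := by linear_combination ht
  have e0 : ∀ l : K, Pr 8 g (tv hB (a + l • b) c * tv hB (a + (l + 1) • b) (-c)) := fun l =>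
    pr_orth hθ hB (by omega) hg (hne l) (hne _) (hiso _ _) (hiso _ _) (hiso _ _) hc
  have e1 : Pr 8 g (tv hB (a + (t + 1) • b) c * tv hB (a + t • b) (-c)) :=
    pr_orth hθ hB (by omega) hg (hne _) (hne _) (hiso _ _) (hiso _ _) (hiso _ _) hc
  have e2 := (e0 0).mul e1
  have e3 : tv hB (a + (0 : K) • b) c * tv hB (a + ((0 : K) + 1) • b) (-c) *
      (tv hB (a + (t + 1) • b) c * tv hB (a + t • b) (-c)) = tv hB b c := by
    apply Subtype.ext
    apply LinearEquiv.ext
    intro x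
    have hnc : -c + θ (-c) = 0 := ng hc
    change (tv hB (a + (0 : K) • b) c : V ≃ₗ[K] V) ((tv hB (a + ((0 : K) + 1) • b) (-c) : V ≃ₗ[K] V)
      ((tv hB (a + (t + 1) • b) c : V ≃ₗ[K] V) ((tv hB (a + t • b) (-c) : V ≃ₗ[K] V) x))) =
      (tv hB b c : V ≃ₗ[K] V) x
    have hap : ∀ (l : K) (c : K), c + θ c = 0 → ∀ x : V,
        (tv hB (a + l • b) c : V ≃ₗ[K] V) x = x + (c * (h x a + θ l * h x b)) • (a + l • b) := by
      intro l c hc x
      rw [tv_apply hB (hiso l l) hc, hB.addr, hB.smr]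
    have hxa : ∀ (l s : K) (x : V), h (x + s • (a + l • b)) a = h x a := by
      intro l s x
      simp only [hB.addl, hB.sml, ha, hba]
      ring
    have hxb : ∀ (l s : K) (x : V), h (x + s • (a + l • b)) b = h x b := by
      intro l s x
      simp only [hB.addl, hB.sml, hb, ha1]
      ring
    rw [hap t _ hnc, hap (t + 1) _ hc, hxa, hxb, hap (0 + 1) _ hnc, hxa, hxb, hxa, hxb,
      hap 0 _ hc, hxa, hxb, hxa, hxb, hxa, hxb, tv_apply hB hb hc, map_add, map_add, map_one,
      map_zero, ht']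
    module
  rw [e3] at e2
  exact e2

end C

section Md

variable {K W : Type*} [Field K] [Finite K] [AddCommGroup W] [Module K W] [Module.Finite K W]
  {θ : K ≃+* K} {h : W → W → K} (hB : Hm θ h) (hθ : Iv θ)

include hθ in
omit [Module.Finite K W] in
/-- isotropic elements of the radical -/
theorem pr_qq_iso {g : SUG (hyp θ h)} {m : ℕ}
    (H : ∀ (a : K × W × K) (c : K), hyp θ h a a = 0 → c + θ c = 0 →
      Pr m g (tv (hyp_hm hθ hB) a c)) {y : W} (hy : h y y = 0) (h0 : (0 : K) + θ 0 + h y y = 0) :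
    Pr (3 * m) g ⟨qq hB y 0, qq_SUG hB h0⟩ := by
  have hV := hyp_hm hθ hB
  obtain ⟨d, hd, hd'⟩ := exists_dl hθ
  have hd0 : d + θ d = 0 := by rw [hd', add_neg_cancel]
  have hnd : -d + θ (-d) = 0 := ng hd0
  obtain ⟨a, ha⟩ : ∃ a : K × W × K, a = (-d⁻¹, y, 0) := ⟨_, rfl⟩
  obtain ⟨b, hb⟩ : ∃ b : K × W × K, b = (0, y, 0) := ⟨_, rfl⟩
  have haa : hyp θ h a a = 0 := by
    rw [ha, hyp_apply]
    change -d⁻¹ * θ 0 + 0 * θ (-d⁻¹) + h y y = 0
    rw [map_zero, hy]
    ring
  have hbb : hyp θ h b b = 0 := by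
    rw [hb, hyp_apply]
    change (0 : K) * θ 0 + 0 * θ 0 + h y y = 0
    rw [hy]
    ring
  have he : d⁻¹ + θ d⁻¹ = 0 := by rw [map_inv₀, hd', inv_neg, add_neg_cancel]
  have h1 := ((H a d haa hd0).mul (H (oo K W) d⁻¹ (oo_iso hB) he)).mul (H b (-d) hbb hnd)
  have h2 : tv hV a d * tv hV (oo K W) d⁻¹ * tv hV b (-d) =
      ⟨qq hB y 0, qq_SUG hB h0⟩ := by
    apply Subtype.ext
    apply LinearEquiv.ext
    intro x
    change (tv hV a d : (K × W × K) ≃ₗ[K] (K × W × K))
      ((tv hV (oo K W) d⁻¹ : (K × W × K) ≃ₗ[K] (K × W × K))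
      ((tv hV b (-d) : (K × W × K) ≃ₗ[K] (K × W × K)) x)) = qq hB y 0 x
    have f1 : ∀ x, hyp θ h x (oo K W) = x.2.2 := by
      intro x
      rw [hV.herm (oo K W) x, hyp_oo hB, hθ.inv]
    have f2 : ∀ x : K × W × K, hyp θ h x b = h x.2.1 y := by
      intro x
      rw [hb, hyp_apply]
      change x.1 * θ 0 + x.2.2 * θ 0 + h x.2.1 y = _
      rw [map_zero]
      ring
    have f3 : ∀ x : K × W × K, hyp θ h x a = x.2.2 * d⁻¹ + h x.2.1 y := by
      intro x
      rw [ha, hyp_apply]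
      change x.1 * θ 0 + x.2.2 * θ (-d⁻¹) + h x.2.1 y = _
      rw [map_zero, map_neg, map_inv₀, hd', inv_neg, neg_neg]
      ring
    obtain ⟨x1, x2, x3⟩ := x
    have g1 : (tv hV b (-d) : (K × W × K) ≃ₗ[K] (K × W × K)) (x1, x2, x3) =
        (x1, x2 + (-d * h x2 y) • y, x3) := by
      rw [tv_apply hV hbb hnd, f2, hb]
      refine Prod.ext ?_ (Prod.ext rfl ?_)
      · change x1 + (-d * h x2 y) * 0 = x1
        ring
      · change x3 + (-d * h x2 y) * 0 = x3
        ring
    have g2 : ∀ (x1 : K) (x2 : W) (x3 : K),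
        (tv hV (oo K W) d⁻¹ : (K × W × K) ≃ₗ[K] (K × W × K)) (x1, x2, x3) =
        (x1 + d⁻¹ * x3, x2, x3) := by
      intro x1 x2 x3
      rw [tv_apply hV (oo_iso hB) he, f1]
      refine Prod.ext ?_ (Prod.ext ?_ ?_)
      · change x1 + (d⁻¹ * x3) * 1 = x1 + d⁻¹ * x3
        ring
      · change x2 + (d⁻¹ * x3) • (0 : W) = x2
        rw [smul_zero, add_zero]
      · change x3 + (d⁻¹ * x3) * 0 = x3
        ring
    have g3 : ∀ (x1 : K) (x2 : W) (x3 : K),
        (tv hV a d : (K × W × K) ≃ₗ[K] (K × W × K)) (x1, x2, x3) =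
        (x1 + d * (x3 * d⁻¹ + h x2 y) * (-d⁻¹), x2 + (d * (x3 * d⁻¹ + h x2 y)) • y, x3) := by
      intro x1 x2 x3
      rw [tv_apply hV haa hd0, f3, ha]
      refine Prod.ext rfl (Prod.ext rfl ?_)
      change x3 + (d * (x3 * d⁻¹ + h x2 y)) * 0 = x3
      ring
    rw [g1, g2, g3, qq_apply, hB.addl, hB.sml, hy]
    refine Prod.ext ?_ (Prod.ext ?_ rfl)
    · change x1 + d⁻¹ * x3 + d * (x3 * d⁻¹ + (h x2 y + -d * h x2 y * 0)) * (-d⁻¹) =
        x1 - h x2 y + 0 * x3
      field_simp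
      ring
    · change x2 + (-d * h x2 y) • y + (d * (x3 * d⁻¹ + (h x2 y + -d * h x2 y * 0))) • y =
        x2 + x3 • y
      have e1 : d * (x3 * d⁻¹ + (h x2 y + -d * h x2 y * 0)) = x3 + d * h x2 y := by
        field_simp
        ring
      rw [e1]
      module
  rw [h2] at h1
  exact h1.mono (by omega)

include hθ hB in
/-- every vector is a sum of two isotropic vectors -/
theorem exists_two_iso (hd : 2 ≤ finrank K W) (y : W) :
    ∃ y1 y2 : W, h y1 y1 = 0 ∧ h y2 y2 = 0 ∧ y1 + y2 = y := by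
  by_cases hy : h y y = 0
  · exact ⟨y, 0, hy, hB.zl 0, add_zero y⟩
  obtain ⟨w, hw⟩ := exists_norm_one hθ (rs_hm hB (nd_pp hB (nd_line hB hy)))
    (by have := finrank_pp_line hB hy; omega)
  have hw' : h w w = 1 := hw
  have hwy : h w y = 0 := (mem_pp_line hB).mp w.2
  obtain ⟨t, ht0, ht⟩ := exists_isotropic hθ hB hy (by rw [hw']; exact one_ne_zero)
    (hB.swap hwy)
  obtain ⟨s, hs⟩ := exists_tr_one hθ
  obtain ⟨z, hz⟩ : ∃ z, z = y + t • (w : W) := ⟨_, rfl⟩
  rw [← hz] at ht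
  have hzy : h z y = h y y := by
    rw [hz, hB.addl, hB.sml, hwy, mul_zero, add_zero]
  have hyz : h y z = h y y := by rw [hB.herm z y, hzy, hB.fix]
  refine ⟨s • z, y - s • z, smul_iso hB ht s, ?_, add_sub_cancel _ _⟩
  rw [hB.subl, hB.subr, hB.subr, hB.smr, hB.sml, hB.sml, hB.smr, ht, hzy, hyz]
  linear_combination -(h y y) * hs

/-- The elements of the radical are products of few transvections, dimension at least four. -/
theorem pr_qq4 (hd : 2 ≤ finrank K W) {g : SUG (hyp θ h)} {m : ℕ}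
    (H : ∀ (a : K × W × K) (c : K), hyp θ h a a = 0 → c + θ c = 0 →
      Pr m g (tv (hyp_hm hθ hB) a c)) {y : W} {c : K} (hc : c + θ c + h y y = 0) :
    Pr (7 * m) g ⟨qq hB y c, qq_SUG hB hc⟩ := by
  have hV := hyp_hm hθ hB
  obtain ⟨y1, y2, h1, h2, rfl⟩ := exists_two_iso hB hθ hd y
  have e1 : (0 : K) + θ 0 + h y1 y1 = 0 := by rw [map_zero, h1]; ring
  have e2 : (0 : K) + θ 0 + h y2 y2 = 0 := by rw [map_zero, h2]; ring
  have h3 := (pr_qq_iso hB hθ H h1 e1).mul (pr_qq_iso hB hθ H h2 e2)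
  have h6 : (c + h y2 y1) + θ (c + h y2 y1) = 0 := by
    rw [map_add, ← hB.herm]
    simp only [hB.addl, hB.addr, h1, h2] at hc
    linear_combination hc
  have h7 := h3.mul (H (oo K W) (c + h y2 y1) (oo_iso hB) h6)
  have h8 : (⟨qq hB y1 0, qq_SUG hB e1⟩ : SUG (hyp θ h)) * ⟨qq hB y2 0, qq_SUG hB e2⟩ *
      tv hV (oo K W) (c + h y2 y1) = ⟨qq hB (y1 + y2) c, qq_SUG hB hc⟩ := by
    apply Subtype.ext
    rw [Subgroup.coe_mul, Subgroup.coe_mul, tv_coe hV (oo_iso hB) h6, ← qq_tU hB hθ]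
    change qq hB y1 0 * qq hB y2 0 * qq hB 0 (c + h y2 y1) = qq hB (y1 + y2) c
    rw [qq_mul, qq_mul, hB.zl, add_zero]
    congr 1
    ring
  rw [h8] at h7
  exact h7.mono (by omega)

theorem pr_rad4 (hd : 2 ≤ finrank K W) {g : SUG (hyp θ h)} {m : ℕ}
    (H : ∀ (a : K × W × K) (c : K), hyp θ h a a = 0 → c + θ c = 0 →
      Pr m g (tv (hyp_hm hθ hB) a c)) {s : SUG (hyp θ h)} (hs : s ∈ rad hB) :
    Pr (7 * m) g s := by
  obtain ⟨y, c, hs⟩ := hs
  have hc : c + θ c + h y y = 0 := cond_of_mem hB (by rw [← hs]; exact s.2.1)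
  have h1 := pr_qq4 hB hθ hd H hc
  have h2 : s = ⟨qq hB y c, qq_SUG hB hc⟩ := Subtype.ext hs
  rw [h2]
  exact h1

include hθ in
/-- Two subgroups which contain the transvections and whose elements are products of few
conjugates. -/
theorem two_hyp4 (hW : 2 ≤ finrank K W) :
    ∃ A B : Subgroup (SUG (hyp θ h)), (∀ (a : K × W × K) (c : K), hyp θ h a a = 0 → c + θ c = 0 →
      tv (hyp_hm hθ hB) a c ∈ A ⊔ B) ∧ ∀ g : SUG (hyp θ h),
      (¬ ∃ l : K, ∀ x, (g : (K × W × K) ≃ₗ[K] (K × W × K)) x = l • x) →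
      ∀ y, (y ∈ A ∨ y ∈ B) → Pr 112 g y := by
  have hV := hyp_hm hθ hB
  have hd : 4 ≤ finrank K (K × W × K) := by
    rw [Module.finrank_prod, Module.finrank_prod, Module.finrank_self]
    omega
  have ho'0 : o' K W ≠ 0 := by
    intro h0
    exact one_ne_zero (congrArg (fun u : K × W × K => u.2.2) h0)
  obtain ⟨r, hr⟩ := iso_trans hθ hV (by omega) (oo_ne (K := K) (W := W)) ho'0 (oo_iso hB)
    (o'_iso hB)
  refine ⟨_, _, fun a c ha hc => tv_mem_sup hB hθ hr a ha hc, ?_⟩
  intro g hg y hy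
  have H : ∀ (a : K × W × K) (c : K), hyp θ h a a = 0 → c + θ c = 0 → Pr 16 g (tv hV a c) :=
    fun a c ha hc => pr_tv4 hθ hV hd hg ha hc
  rcases hy with hy | ⟨s, hs, rfl⟩
  · exact pr_rad4 hB hθ hW H hy
  · exact (pr_rad4 hB hθ hW H hs).conj r

end Md

/-- **Special unitary groups, modulo their centres, dimension at least four.** Let `h` be a
nondegenerate hermitian form on a vector space of dimension at least four over a finite field `K`
with an involution `θ`, such that the quotient of the special unitary group of `h` by its centre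
is simple. Then this quotient is generated by two subgroups all of whose elements are products of
at most 112 conjugates of `x` and `x⁻¹`, for every `x ≠ 1`. -/
theorem two_PSU4 {K V : Type*} [Field K] [Finite K] [AddCommGroup V] [Module K V]
    [Module.Finite K V] {θ : K ≃+* K} (hθ : Iv θ) {h : V → V → K}
    (hB : Hm θ h) (hd : 4 ≤ finrank K V) [IsSimpleGroup (SUG h ⧸ center (SUG h))] :
    Two (SUG h ⧸ center (SUG h)) 112 := by
  obtain ⟨o, ho0, ho⟩ := exists_iso_vec hθ hB (by omega)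
  obtain ⟨o'', ho', h1⟩ := exists_pair hθ hB ho0 ho
  have h3 := (splitE hB ho ho' h1).finrank_eq
  rw [Module.finrank_prod, Module.finrank_prod, Module.finrank_self] at h3
  have hW := rs_hm hB (WW_nd hB ho ho' h1)
  have hS := splitE_iso hB ho ho' h1
  obtain ⟨E, hE⟩ : ∃ E, E = splitE hB ho ho' h1 := ⟨_, rfl⟩
  rw [← hE] at hS
  obtain ⟨A, B, hAB, hP⟩ := two_hyp4 hW hθ (by omega)
  have hV := hyp_hm hθ hW
  let Φ : SUG (hyp θ (rs h (WW hB o o''))) →* SUG h :=
    { toFun := fun g => ⟨cj E g, (cj_mem_SUG hS).mpr g.2⟩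
      map_one' := Subtype.ext (map_one (cj E))
      map_mul' := fun g k => Subtype.ext (map_mul (cj E) _ _) }
  have hΦ : Function.Surjective Φ := by
    intro k
    refine ⟨⟨(cj E).symm k, ?_⟩, Subtype.ext ((cj E).apply_symm_apply _)⟩
    rw [← cj_mem_SUG hS, MulEquiv.apply_symm_apply]
    exact k.2
  have hΦi : Function.Injective Φ := by
    intro g k hgk
    apply Subtype.ext
    exact (cj E).injective (congrArg Subtype.val hgk)
  let F : SUG (hyp θ (rs h (WW hB o o''))) →* SUG h ⧸ center (SUG h) :=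
    (QuotientGroup.mk' _).comp Φ
  have hFs : Function.Surjective F := (QuotientGroup.mk'_surjective _).comp hΦ
  refine ⟨A.map F, B.map F, ?_, ?_⟩
  · -- the image is everything, because the transvections generate a normal subgroup
    rw [← Subgroup.map_sup, eq_top_iff]
    obtain ⟨N, hN⟩ : ∃ N, N = (TG hV).subgroupOf (SUG (hyp θ (rs h (WW hB o o'')))) := ⟨_, rfl⟩
    have hNn : N.Normal := by
      refine ⟨fun n hn g => ?_⟩
      rw [hN, mem_subgroupOf] at hn ⊢
      exact TG_conj hV g.2.1 hn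
    have hNH : N ≤ A ⊔ B := by
      intro s hs
      rw [hN, mem_subgroupOf] at hs
      have h5 : TG hV ≤ (A ⊔ B).map (SUG (hyp θ (rs h (WW hB o o'')))).subtype := by
        rw [TG, closure_le]
        rintro _ ⟨a, ha, c, hc, rfl⟩
        exact ⟨tv hV a c, hAB a c ha hc, tv_coe hV ha hc⟩
      obtain ⟨s', hs', he⟩ := h5 hs
      have h6 : s' = s := Subtype.ext he
      rw [← h6]
      exact hs'
    have hmap : (N.map F).Normal := hNn.map F hFs
    rcases hmap.eq_bot_or_eq_top with h5 | h5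
    · exfalso
      obtain ⟨d, hd0, hd'⟩ := exists_dl hθ
      have hd1 : d + θ d = 0 := by rw [hd', add_neg_cancel]
      have hoi := oo_iso hW
      obtain ⟨r, hr⟩ := iso_trans hθ hV (by
        rw [Module.finrank_prod, Module.finrank_prod, Module.finrank_self]
        omega) (oo_ne (K := K) (W := WW hB o o'')) (by
          intro h0
          exact one_ne_zero (congrArg (fun u : K × WW hB o o'' × K => u.2.2) h0) :
          o' K (WW hB o o'') ≠ 0) hoi (o'_iso hW)
      have h6 : tv hV (oo K _) d ∈ N := by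
        rw [hN, mem_subgroupOf, tv_coe hV hoi hd1]
        exact tU_mem_TG hV hoi hd1
      have h7 : F (tv hV (oo K _) d) = 1 := by
        have h8 : F (tv hV (oo K _) d) ∈ N.map F := ⟨_, h6, rfl⟩
        rw [h5] at h8
        exact mem_bot.mp h8
      change QuotientGroup.mk' _ (Φ (tv hV (oo K _) d)) = 1 at h7
      rw [QuotientGroup.mk'_apply, QuotientGroup.eq_one_iff, mem_center_iff] at h7
      have h8 := h7 (Φ r)
      rw [← map_mul, ← map_mul] at h8
      have h9 := hΦi h8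
      have h10 : r * tv hV (oo K _) d * r⁻¹ = tv hV (oo K _) d := by
        rw [h9]
        group
      rw [tv_conj hV r hoi hd1, hr] at h10
      have h11 := congrArg (fun k : SUG (hyp θ (rs h (WW hB o o''))) =>
        ((k : (K × WW hB o o'' × K) ≃ₗ[K] (K × WW hB o o'' × K)) (o' K _)).1) h10
      have e1 : hyp θ (rs h (WW hB o o'')) (o' K _) (oo K _) = 1 := by
        rw [hV.herm (oo K _), oo_o' hW, map_one]
      have e2 := o'_iso hW (K := K)
      simp only [tv_apply hV e2 hd1, tv_apply hV hoi hd1, e1, e2, mul_zero, zero_smul, add_zero,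
        mul_one] at h11
      change (0 : K) = 0 + d * 1 at h11
      rw [zero_add, mul_one] at h11
      exact hd0 h11.symm
    · rw [← h5]
      exact Subgroup.map_mono hNH
  · intro x hx y hy
    obtain ⟨g, rfl⟩ := hFs x
    have hg : ¬ ∃ l : K, ∀ x, (g : (K × WW hB o o'' × K) ≃ₗ[K] (K × WW hB o o'' × K)) x =
        l • x := by
      rintro ⟨l, hl⟩
      apply hx
      change QuotientGroup.mk' _ (Φ g) = 1
      rw [QuotientGroup.mk'_apply, QuotientGroup.eq_one_iff, mem_center_iff]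
      intro k
      apply Subtype.ext
      apply LinearEquiv.ext
      intro v
      have e1 : ∀ v, ((Φ g : SUG h) : V ≃ₗ[K] V) v = l • v := by
        intro v
        change cj E g v = l • v
        rw [cj_apply, hl, map_smul, E.apply_symm_apply]
      change (k : V ≃ₗ[K] V) (((Φ g : SUG h) : V ≃ₗ[K] V) v) =
        ((Φ g : SUG h) : V ≃ₗ[K] V) ((k : V ≃ₗ[K] V) v)
      rw [e1, e1, map_smul]
    rcases hy with ⟨s, hs, rfl⟩ | ⟨s, hs, rfl⟩
    · exact (hP g hg s (Or.inl hs)).map F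
    · exact (hP g hg s (Or.inr hs)).map F

end Vale.Agent.P318.R2.H969
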